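import Mathlib

namespace Vale.Agent.P047
open Finset

/-- Uniform average over a finite type. -/
noncomputable def avg {α : Type*} [Fintype α] (F : α → ℝ) : ℝ :=
  (∑ x, F x) / (Fintype.card α : ℝ)

section avg
variable {α β : Type*} [Fintype α] [Fintype β]

lemma avg_add (F G : α → ℝ) : avg (fun x => F x + G x) = avg F + avg G := by
  simp [avg, sum_add_distrib, add_div]

lemma avg_sub (F G : α → ℝ) : avg (fun x => F x - G x) = avg F - avg G := by
  simp [avg, sum_sub_distrib, sub_div]

lemma avg_const_mul (c : ℝ) (F : α → ℝ) : avg (fun x => c * F x) = c * avg F := by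
  simp [avg, ← mul_sum, mul_div_assoc]

lemma avg_mul_const (c : ℝ) (F : α → ℝ) : avg (fun x => F x * c) = avg F * c := by
  simp only [mul_comm _ c, avg_const_mul]

lemma avg_sum {γ : Type*} (s : Finset γ) (F : γ → α → ℝ) :
    avg (fun x => ∑ j ∈ s, F j x) = ∑ j ∈ s, avg (F j) := by
  simp only [avg]
  rw [sum_comm, sum_div]

lemma avg_const [Nonempty α] (c : ℝ) : avg (fun _ : α => c) = c := by
  simp [avg]

lemma avg_zero : avg (fun _ : α => (0 : ℝ)) = 0 := by simp [avg]

lemma avg_mono {F G : α → ℝ} (h : ∀ x, F x ≤ G x) : avg F ≤ avg G := by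
  unfold avg
  gcongr with x
  exact h x

lemma avg_nonneg {F : α → ℝ} (h : ∀ x, 0 ≤ F x) : 0 ≤ avg F := by
  unfold avg
  exact div_nonneg (sum_nonneg fun x _ => h x) (Nat.cast_nonneg _)

lemma avg_congr {F G : α → ℝ} (h : ∀ x, F x = G x) : avg F = avg G := by
  rw [funext h]

lemma avg_equiv (e : α ≃ β) (F : β → ℝ) : avg (fun x => F (e x)) = avg F := by
  unfold avg
  rw [Fintype.card_congr e, Equiv.sum_comp e F]

lemma avg_neg (F : α → ℝ) : avg (fun x => - F x) = - avg F := by
  simp [avg, neg_div]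

end avg

section prod
variable {κ Ω : Type*} [Fintype κ] [DecidableEq κ] [Fintype Ω]

lemma avg_prod (f : κ → Ω → ℝ) :
    avg (fun y : κ → Ω => ∏ i, f i (y i)) = ∏ i, avg (f i) := by
  unfold avg
  rw [prod_div_distrib, Finset.prod_univ_sum]
  simp [Fintype.piFinset_univ]

lemma avg_update [Nonempty Ω] (j : κ) (F : (κ → Ω) → ℝ) :
    avg F = avg (fun y => avg (fun z => F (Function.update y j z))) := by
  let e : (κ → Ω) × Ω ≃ (κ → Ω) × Ω :=
    { toFun := fun p => (Function.update p.1 j p.2, p.1 j)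
      invFun := fun p => (Function.update p.1 j p.2, p.1 j)
      left_inv := by intro p; simp
      right_inv := by intro p; simp }
  have h1 : ∑ p : (κ → Ω) × Ω, F (e p).1 = ∑ p : (κ → Ω) × Ω, F p.1 :=
    Equiv.sum_comp e (fun p => F p.1)
  have hc : (Fintype.card Ω : ℝ) ≠ 0 := by exact_mod_cast Fintype.card_ne_zero
  rw [Fintype.sum_prod_type, Fintype.sum_prod_type] at h1
  simp only [e, Equiv.coe_fn_mk, sum_const, card_univ, nsmul_eq_mul] at h1
  unfold avg
  rw [← sum_div, h1, ← mul_sum]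
  field_simp

/-- Weighted second moment of a sum of independent terms. -/
lemma avg_weighted_sq (u ξ : κ → Ω → ℝ)
    (h : ∀ i l, i ≠ l → avg (fun z => u i z * ξ i z) * avg (fun z => u l z * ξ l z) = 0) :
    avg (fun y : κ → Ω => (∏ i, u i (y i)) * (∑ i, ξ i (y i)) ^ 2)
      = ∑ i, avg (fun z => u i z * ξ i z ^ 2) * ∏ l ∈ univ.erase i, avg (u l) := by
  have key : ∀ y : κ → Ω, (∏ i, u i (y i)) * (∑ i, ξ i (y i)) ^ 2
      = ∑ i, ∑ l, ∏ m, (u m (y m) * (if m = i then ξ m (y m) else 1)
          * (if m = l then ξ m (y m) else 1)) := by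
    intro y
    rw [sq, sum_mul_sum, mul_sum]
    refine sum_congr rfl fun i _ => ?_
    rw [mul_sum]
    refine sum_congr rfl fun l _ => ?_
    rw [prod_mul_distrib, prod_mul_distrib]
    simp [prod_ite_eq', mul_assoc]
  rw [avg_congr key, avg_sum]
  refine sum_congr rfl fun i _ => ?_
  rw [avg_sum]
  have h2 : ∀ l, avg (fun y : κ → Ω => ∏ m, (u m (y m) * (if m = i then ξ m (y m) else 1)
          * (if m = l then ξ m (y m) else 1)))
      = ∏ m, avg (fun z => u m z * (if m = i then ξ m z else 1)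
          * (if m = l then ξ m z else 1)) := fun l =>
    avg_prod (fun m z => u m z * (if m = i then ξ m z else 1) * (if m = l then ξ m z else 1))
  simp only [h2]
  rw [sum_eq_single i]
  · rw [← mul_prod_erase univ _ (mem_univ i)]
    congr 1
    · exact avg_congr fun z => by simp [sq, mul_assoc]
    · refine prod_congr rfl fun m hm => ?_
      have : m ≠ i := ne_of_mem_erase hm
      simp [this]
  · intro l _ hl
    rw [← mul_prod_erase univ _ (mem_univ i),
      ← mul_prod_erase _ _ (mem_erase.2 ⟨hl, mem_univ l⟩), ← mul_assoc]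
    have := h i l (Ne.symm hl)
    simp only [if_true, if_neg hl, if_neg (Ne.symm hl), mul_one]
    rw [this, zero_mul]
  · simp

end prod

/-- Functions depending on at most `D` coordinates. -/
def Junta (ι B : Type*) (D : ℕ) : Set ((ι → B) → ℝ) :=
  {G | ∃ T : Finset ι, T.card ≤ D ∧ ∀ x y, (∀ i ∈ T, x i = y i) → G x = G y}

/-- Linear combinations of functions depending on at most `D` coordinates. -/
def LowOrd {ι B : Type*} (D : ℕ) (F : (ι → B) → ℝ) : Prop :=
  F ∈ Submodule.span ℝ (Junta ι B D)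

section loword
variable {ι B : Type*}

lemma LowOrd.of_junta {D : ℕ} {G : (ι → B) → ℝ} (T : Finset ι) (hT : T.card ≤ D)
    (h : ∀ x y, (∀ i ∈ T, x i = y i) → G x = G y) : LowOrd D G :=
  Submodule.subset_span ⟨T, hT, h⟩

lemma LowOrd.const (D : ℕ) (c : ℝ) : LowOrd D (fun _ : ι → B => c) :=
  LowOrd.of_junta ∅ (by simp) (fun _ _ _ => rfl)

lemma LowOrd.add {D : ℕ} {F G : (ι → B) → ℝ} (hF : LowOrd D F) (hG : LowOrd D G) :
    LowOrd D (fun x => F x + G x) := Submodule.add_mem _ hF hG

lemma LowOrd.sub {D : ℕ} {F G : (ι → B) → ℝ} (hF : LowOrd D F) (hG : LowOrd D G) :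
    LowOrd D (fun x => F x - G x) := Submodule.sub_mem _ hF hG

lemma LowOrd.smul {D : ℕ} {F : (ι → B) → ℝ} (c : ℝ) (hF : LowOrd D F) :
    LowOrd D (fun x => c * F x) := Submodule.smul_mem _ c hF

lemma LowOrd.sum {D : ℕ} {γ : Type*} (s : Finset γ) {F : γ → (ι → B) → ℝ}
    (hF : ∀ j ∈ s, LowOrd D (F j)) : LowOrd D (fun x => ∑ j ∈ s, F j x) := by
  have : (fun x => ∑ j ∈ s, F j x) = ∑ j ∈ s, F j := by ext x; simp
  rw [this]
  exact Submodule.sum_mem _ hF

lemma LowOrd.congr {D : ℕ} {F G : (ι → B) → ℝ} (hF : LowOrd D F) (h : ∀ x, G x = F x) :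
    LowOrd D G := by
  rw [funext h]; exact hF

lemma LowOrd.induct {D : ℕ} {F : (ι → B) → ℝ} (hF : LowOrd D F) (p : ((ι → B) → ℝ) → Prop)
    (hj : ∀ G (T : Finset ι), T.card ≤ D → (∀ x y, (∀ i ∈ T, x i = y i) → G x = G y) → p G)
    (ha : ∀ G H, p G → p H → p (fun x => G x + H x))
    (hs : ∀ (c : ℝ) G, p G → p (fun x => c * G x)) : p F := by
  induction hF using Submodule.span_induction with
  | mem G hG => obtain ⟨T, h1, h2⟩ := hG; exact hj G T h1 h2
  | zero => exact hj _ ∅ (by simp) (fun _ _ _ => rfl)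
  | add G H _ _ h1 h2 => exact ha G H h1 h2
  | smul c G _ h1 => exact hs c G h1

lemma LowOrd.mono {D D' : ℕ} {F : (ι → B) → ℝ} (hF : LowOrd D F) (h : D ≤ D') : LowOrd D' F :=
  hF.induct (LowOrd D') (fun _ T h1 h2 => LowOrd.of_junta T (h1.trans h) h2)
    (fun _ _ h1 h2 => h1.add h2) (fun c _ h1 => h1.smul c)

lemma LowOrd.mul {D D' : ℕ} {F G : (ι → B) → ℝ} (hF : LowOrd D F) (hG : LowOrd D' G) :
    LowOrd (D + D') (fun x => F x * G x) := by
  classical
  refine hF.induct (fun F => LowOrd (D + D') (fun x => F x * G x)) ?_ ?_ ?_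
  · intro F T h1 h2
    refine hG.induct (fun G => LowOrd (D + D') (fun x => F x * G x)) ?_ ?_ ?_
    · intro G T' h3 h4
      refine LowOrd.of_junta (T ∪ T') ((card_union_le _ _).trans (add_le_add h1 h3)) ?_
      intro x y hxy
      rw [h2 x y (fun i hi => hxy i (mem_union_left _ hi)),
        h4 x y (fun i hi => hxy i (mem_union_right _ hi))]
    · intro G H h1 h2
      exact (h1.add h2).congr (fun x => by ring)
    · intro c G h1
      exact (h1.smul c).congr (fun x => by ring)
  · intro G H h1 h2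
    exact (h1.add h2).congr (fun x => by ring)
  · intro c G h1
    exact (h1.smul c).congr (fun x => by ring)

lemma LowOrd.comap {ι' B' : Type*} {D : ℕ} {F : (ι → B) → ℝ} (hF : LowOrd D F)
    (Θ : (ι' → B') → (ι → B)) (π : ι → ι')
    (h : ∀ x y i, x (π i) = y (π i) → Θ x i = Θ y i) : LowOrd D (fun x => F (Θ x)) := by
  classical
  refine hF.induct (fun F => LowOrd D (fun x => F (Θ x))) ?_ ?_ ?_
  · intro G T h1 h2
    refine LowOrd.of_junta (T.image π) (card_image_le.trans h1) ?_
    intro x y hxy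
    exact h2 _ _ (fun i hi => h x y i (hxy _ (mem_image_of_mem π hi)))
  · intro G H h1 h2
    exact h1.add h2
  · intro c G h1
    exact h1.smul c

end loword

/-- The sign of a bit. -/
noncomputable def sg (b : Bool) : ℝ := if b then 1 else -1

lemma avg_sg : avg sg = 0 := by simp [avg, sg]

lemma sg_sq (b : Bool) : sg b * sg b = 1 := by cases b <;> simp [sg]

lemma sg_not (b : Bool) : sg (!b) = - sg b := by cases b <;> simp [sg]

lemma LowOrd.fourier {ι : Type*} [Fintype ι] [DecidableEq ι] {D : ℕ} {F : (ι → Bool) → ℝ}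
    (hF : LowOrd D F) (U : Finset ι) (hU : D < U.card) :
    avg (fun x => F x * ∏ i ∈ U, sg (x i)) = 0 := by
  refine hF.induct (fun F => avg (fun x => F x * ∏ i ∈ U, sg (x i)) = 0) ?_ ?_ ?_
  · intro G T h1 h2
    obtain ⟨j, hjU, hjT⟩ : ∃ j ∈ U, j ∉ T := by
      by_contra hcon
      push Not at hcon
      have := card_le_card (show U ⊆ T from hcon)
      omega
    rw [avg_update j]
    have : ∀ y : ι → Bool, avg (fun z => G (Function.update y j z) *
        ∏ i ∈ U, sg (Function.update y j z i)) = 0 := by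
      intro y
      have h3 : ∀ z, G (Function.update y j z) * ∏ i ∈ U, sg (Function.update y j z i)
          = (G y * ∏ i ∈ U.erase j, sg (y i)) * sg z := by
        intro z
        rw [h2 (Function.update y j z) y (fun i hi => by
          rw [Function.update_of_ne (by rintro rfl; exact hjT hi)]),
          ← mul_prod_erase U _ hjU]
        have : ∏ i ∈ U.erase j, sg (Function.update y j z i) = ∏ i ∈ U.erase j, sg (y i) :=
          prod_congr rfl fun i hi => by rw [Function.update_of_ne (ne_of_mem_erase hi)]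
        rw [this]
        simp only [Function.update_self]
        ring
      rw [avg_congr h3, avg_const_mul, avg_sg, mul_zero]
    rw [avg_congr this, avg_zero]
  · intro G H h1 h2
    rw [avg_congr (G := fun x => G x * ∏ i ∈ U, sg (x i) + H x * ∏ i ∈ U, sg (x i))
      (fun x => by ring), avg_add, h1, h2, add_zero]
  · intro c G h1
    rw [avg_congr (G := fun x => c * (G x * ∏ i ∈ U, sg (x i))) (fun x => by ring),
      avg_const_mul, h1, mul_zero]

end Vale.Agent.P047
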