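import Vale.Agent.P047.Gadget

namespace Vale.Agent.P047
open Finset MeasureTheory ProbabilityTheory Filter Topology

section
variable {Ω : Type*} [Fintype Ω]

/-- The law of a real function on a finite set with the uniform measure. -/
noncomputable def law (Y : Ω → ℝ) : Measure ℝ :=
  ((Fintype.card Ω : ENNReal))⁻¹ • ∑ x, Measure.dirac (Y x)

lemma law_prob [Nonempty Ω] (Y : Ω → ℝ) : IsProbabilityMeasure (law Y) := by
  constructor
  have : (Fintype.card Ω : ENNReal) ≠ 0 := by exact_mod_cast Fintype.card_ne_zero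
  simp [law, Measure.finsetSum_apply, ENNReal.inv_mul_cancel this]

lemma integral_law {E : Type*} [NormedAddCommGroup E] [NormedSpace ℝ E] [CompleteSpace E]
    (Y : Ω → ℝ) (f : ℝ → E) :
    ∫ s, f s ∂(law Y) = ((Fintype.card Ω : ℝ))⁻¹ • ∑ x, f (Y x) := by
  unfold law
  rw [integral_smul_measure, integral_finsetSum_measure (fun x _ => integrable_dirac (by simp))]
  simp [integral_dirac]

lemma integral_law_real (Y : Ω → ℝ) (f : ℝ → ℝ) :
    ∫ s, f s ∂(law Y) = avg (fun x => f (Y x)) := by
  rw [integral_law, avg, smul_eq_mul, div_eq_inv_mul]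

lemma law_real (Y : Ω → ℝ) (s : Set ℝ) (hs : MeasurableSet s) :
    (law Y).real s = avg (fun x => ind (Y x ∈ s)) := by
  rw [← integral_indicator_one hs, integral_law_real]
  refine avg_congr fun x => ?_
  by_cases h : Y x ∈ s
  · rw [ind_of h]; simp [h]
  · rw [ind_of_not h]; simp [h]

lemma charFun_law_sum (X : Ω → ℝ) (r : ℕ) (t : ℝ) :
    charFun (law (fun y : Fin r → Ω => (∑ i, X (y i)) / √r)) t
      = (charFun (law X) ((√r)⁻¹ * t)) ^ r := by
  rw [charFun_apply_real, charFun_apply_real, integral_law, integral_law, smul_pow]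
  have e : ∀ y : Fin r → Ω, Complex.exp ((t : ℂ) * (((∑ i, X (y i)) / √r : ℝ) : ℂ) * Complex.I)
      = ∏ i, Complex.exp (((((√r)⁻¹ * t : ℝ)) : ℂ) * ((X (y i) : ℝ) : ℂ) * Complex.I) := by
    intro y
    rw [← Complex.exp_sum, ← sum_mul, ← mul_sum]
    congr 1
    push_cast
    ring
  simp only [e]
  congr 1
  · simp
  · rw [← Fintype.piFinset_univ, ← Finset.prod_univ_sum (fun _ : Fin r => (univ : Finset Ω))
      (fun _ z => Complex.exp (((((√r)⁻¹ * t : ℝ)) : ℂ) * ((X z : ℝ) : ℂ) * Complex.I))]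
    simp

lemma clt_interval [Nonempty Ω] (X : Ω → ℝ) (h0 : avg X = 0) (h1 : avg (fun z => X z ^ 2) = 1)
    (a b : ℝ) :
    Tendsto (fun r : ℕ => avg (fun y : Fin r → Ω =>
      ind (a ≤ (∑ i, X (y i)) / √r ∧ (∑ i, X (y i)) / √r < b))) atTop
      (𝓝 ((gaussianReal 0 1).real (Set.Ico a b))) := by
  let μ : ℕ → ProbabilityMeasure ℝ := fun r =>
    ⟨law (fun y : Fin r → Ω => (∑ i, X (y i)) / √r), law_prob _⟩
  let γ : ProbabilityMeasure ℝ := ⟨gaussianReal 0 1, inferInstance⟩
  have hlim : Tendsto μ atTop (𝓝 γ) := by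
    refine ProbabilityMeasure.tendsto_iff_tendsto_charFun.2 fun t => ?_
    have := law_prob X
    have := tendsto_charFun_inv_sqrt_mul_pow (P := law X) (X := fun s : ℝ => s)
      measurable_id.aemeasurable (by rw [integral_law_real]; exact h0)
      (by rw [integral_law_real]; exact h1) t
    simpa [μ, γ, charFun_law_sum, charFun_gaussianReal, neg_div] using this
  have hfr : (γ : Measure ℝ) (frontier (Set.Ico a b)) = 0 := by
    have : NullSingletonClass (gaussianReal 0 1) := nullSingletonClass_gaussianReal one_ne_zero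
    have hsub : frontier (Set.Ico a b) ⊆ {a, b} := by
      by_cases hab : a < b
      · rw [frontier_Ico hab]
      · rw [Set.Ico_eq_empty hab]; simp
    exact measure_mono_null hsub ((Set.toFinite _).measure_zero (gaussianReal 0 1))
  have h2 := ProbabilityMeasure.tendsto_measure_of_null_frontier_of_tendsto' hlim hfr
  have h3 := (ENNReal.tendsto_toReal (measure_ne_top (γ : Measure ℝ) (Set.Ico a b))).comp h2
  refine h3.congr fun r => ?_
  exact law_real _ _ measurableSet_Ico

lemma mgf_bound [Nonempty Ω] (X : Ω → ℝ) (h0 : avg X = 0) (h1 : avg (fun z => X z ^ 2) = 1)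
    (θ : ℝ) : ∀ᶠ r : ℕ in atTop,
      avg (fun y : Fin r → Ω => Real.exp (θ * ((∑ i, X (y i)) / √r))) ≤ Real.exp (θ ^ 2) := by
  have hev : ∀ᶠ r : ℕ in atTop, ∀ z, |θ * X z| ≤ √r := by
    rw [eventually_all]
    intro z
    exact (Real.tendsto_sqrt_atTop.comp tendsto_natCast_atTop_atTop).eventually_ge_atTop _
  filter_upwards [hev, eventually_ge_atTop 1] with r hr hr1
  have hr0 : (0 : ℝ) < r := by exact_mod_cast hr1
  have hs : 0 < √(r : ℝ) := Real.sqrt_pos.2 hr0
  have e : ∀ y : Fin r → Ω, Real.exp (θ * ((∑ i, X (y i)) / √r))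
      = ∏ i, Real.exp (θ * X (y i) / √r) := by
    intro y
    rw [← Real.exp_sum, ← sum_div, ← mul_sum, mul_div_assoc]
  rw [avg_congr e, avg_prod (fun (_ : Fin r) z => Real.exp (θ * X z / √r))]
  have hb : avg (fun z => Real.exp (θ * X z / √r)) ≤ Real.exp (θ ^ 2 / r) := by
    have h2 : ∀ z, Real.exp (θ * X z / √r) ≤ 1 + θ / √r * X z + θ ^ 2 / r * X z ^ 2 := by
      intro z
      have h3 : |θ * X z / √r| ≤ 1 := by
        rw [abs_div, abs_of_pos hs, div_le_one hs]; exact hr z
      have h4 := (abs_le.1 (Real.abs_exp_sub_one_sub_id_le h3)).2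
      have h5 : (θ * X z / √r) ^ 2 = θ ^ 2 / r * X z ^ 2 := by
        rw [div_pow, Real.sq_sqrt hr0.le]; ring
      have h6 : θ * X z / √r = θ / √r * X z := by ring
      linarith
    refine (avg_mono h2).trans ?_
    rw [avg_add, avg_add, avg_const, avg_const_mul, avg_const_mul, h1,
      show avg (fun z => X z) = 0 from h0]
    have := Real.add_one_le_exp (θ ^ 2 / r)
    linarith
  calc ∏ _i : Fin r, avg (fun z => Real.exp (θ * X z / √r))
      ≤ ∏ _i : Fin r, Real.exp (θ ^ 2 / r) :=
        prod_le_prod (fun _ _ => avg_nonneg fun _ => (Real.exp_pos _).le) (fun _ _ => hb)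
    _ = Real.exp (θ ^ 2) := by
        rw [prod_const, card_univ, Fintype.card_fin, ← Real.exp_nat_mul]
        congr 1
        field_simp

end

lemma gauss_lower {a b m : ℝ} (hab : a ≤ b)
    (h : ∀ s, a ≤ s → s < b → m ≤ gaussianPDFReal 0 1 s) :
    m * (b - a) ≤ (gaussianReal 0 1).real (Set.Ico a b) := by
  rw [Measure.real, gaussianReal_apply_eq_integral 0 one_ne_zero,
    ENNReal.toReal_ofReal (integral_nonneg fun s => gaussianPDFReal_nonneg _ _ _)]
  have := setIntegral_ge_of_const_le_real (μ := volume) (s := Set.Ico a b) (c := m)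
    (f := gaussianPDFReal 0 1) measurableSet_Ico (by simp) (fun s hs => h s hs.1 hs.2)
    (integrable_gaussianPDFReal 0 1).integrableOn
  simpa [Real.volume_real_Ico_of_le hab] using this

lemma gauss_upper {a b m : ℝ} (hab : a ≤ b)
    (h : ∀ s, a ≤ s → s < b → gaussianPDFReal 0 1 s ≤ m) :
    (gaussianReal 0 1).real (Set.Ico a b) ≤ m * (b - a) := by
  rw [Measure.real, gaussianReal_apply_eq_integral 0 one_ne_zero,
    ENNReal.toReal_ofReal (integral_nonneg fun s => gaussianPDFReal_nonneg _ _ _)]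
  have := setIntegral_mono_on (μ := volume) (s := Set.Ico a b) (f := gaussianPDFReal 0 1)
    (g := fun _ => m) (integrable_gaussianPDFReal 0 1).integrableOn (by simp) measurableSet_Ico
    (fun s hs => h s hs.1 hs.2)
  simpa [Real.volume_real_Ico_of_le hab, mul_comm] using this

end Vale.Agent.P047
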