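import Vale.Agent.P047.Gadget

namespace Vale.Agent.P047
open Finset

/-- Some map from a cube has all its functions of order `≤ D` and information `≥ I`. -/
def Ach (D : ℕ) (I : ℝ) : Prop :=
  ∃ (ι : Type) (_ : Fintype ι) (_ : DecidableEq ι) (A : Type) (g : (ι → Bool) → A) (v : A → ℝ),
    Orth g v ∧ Deg D g ∧ I ≤ avg (fun x => v (g x) ^ 2)

/-- The hypothesis of the gadget inequality. -/
def Good {Ω W : Type*} [Fintype Ω] [Fintype W] (ζ : Ω → ℝ) (J : ℝ → W) (c ω q : W → ℝ) : Prop :=
  (∀ i, q i ≤ avg (fun z => ind (c i ≤ ζ z ∧ ζ z < c i + ω i))) ∧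
  avg (fun z => ((|ζ z + 1 - c (J (ζ z))| + ω (J (ζ z))) ^ 2 + 4 * ∑ i, ω i ^ 2)
      / q (J (ζ z))) ≤ 1 / 2

section
variable {W A : Type*} [Fintype W] [DecidableEq W]

lemma lowOrd_Bset (J : ℝ → W) (E : W → ℝ → Prop) (ν : A → ℝ) :
    LowOrd (Fintype.card W) (fun a : Option (Option W) → A =>
      ind (Bset J E (ν (a (some none))) (fun i => ν (a (some (some i)))))) := by
  classical
  have e : ∀ a : Option (Option W) → A,
      ind (Bset J E (ν (a (some none))) (fun i => ν (a (some (some i)))))
      = (∑ j, ind (J (ν (a (some none))) = j) *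
          ∏ i, if i = j then 1 else ind (E i (ν (a (some (some i))))))
        - ∏ i, ind (E i (ν (a (some (some i))))) := by
    intro a
    rw [ind_Bset, sum_eq_single (J (ν (a (some none))))]
    · rw [ind_of rfl, one_mul]
    · intro b _ hb
      rw [ind_of_not (Ne.symm hb), zero_mul]
    · simp
  refine LowOrd.congr (LowOrd.sub (LowOrd.sum _ fun j _ => ?_) ?_) e
  · refine LowOrd.of_junta (insert (some none) ((univ.erase j).image (fun i => some (some i))))
      ?_ ?_
    · refine (card_insert_le _ _).trans ?_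
      have h1 := card_image_le (s := univ.erase j) (f := fun i => (some (some i) : Option (Option W)))
      rw [card_erase_of_mem (mem_univ j), card_univ] at h1
      have : 0 < Fintype.card W := Fintype.card_pos_iff.2 ⟨j⟩
      omega
    · intro x y h
      rw [h (some none) (mem_insert_self _ _)]
      congr 1
      refine prod_congr rfl fun i _ => ?_
      split_ifs with hi
      · rfl
      · rw [h (some (some i)) (mem_insert_of_mem (mem_image_of_mem _ (mem_erase.2 ⟨hi, mem_univ _⟩)))]
  · refine LowOrd.of_junta (univ.image (fun i => some (some i))) (card_image_le.trans (by simp)) ?_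
    intro x y h
    refine prod_congr rfl fun i _ => ?_
    rw [h (some (some i)) (mem_image_of_mem _ (mem_univ _))]

open Classical in
/-- The coarsening map of the gadget. -/
noncomputable def gad (J : ℝ → W) (E : W → ℝ → Prop) (ν : A → ℝ) (a : Option (Option W) → A) :
    A ⊕ (Option W → A) :=
  if Bset J E (ν (a (some none))) (fun i => ν (a (some (some i)))) then Sum.inl (a none)
  else Sum.inr (fun i => a (some i))

lemma deg_gad (J : ℝ → W) (E : W → ℝ → Prop) (ν : A → ℝ) :
    Deg (Fintype.card W + 1) (gad J E ν) := by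
  classical
  intro φ
  have e : ∀ a : Option (Option W) → A, φ (gad J E ν a)
      = ind (Bset J E (ν (a (some none))) (fun i => ν (a (some (some i))))) * φ (Sum.inl (a none))
        + (1 - ind (Bset J E (ν (a (some none))) (fun i => ν (a (some (some i))))))
          * φ (Sum.inr (fun i => a (some i))) := by
    intro a
    unfold gad
    split_ifs with h
    · rw [ind_of h]; ring
    · rw [ind_of_not h]; ring
  refine LowOrd.congr (LowOrd.add ((lowOrd_Bset J E ν).mul ?_) ?_) e
  · exact LowOrd.of_junta {none} (by simp) (fun x y h => by rw [h none (by simp)])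
  · refine LowOrd.of_junta (univ.image some) (card_image_le.trans (by simp)) ?_
    intro x y h
    have h' : ∀ i, x (some i) = y (some i) := fun i => h _ (mem_image_of_mem _ (mem_univ _))
    simp only [h']

end

lemma step {ι A W : Type} [Fintype ι] [DecidableEq ι] [Fintype W] [DecidableEq W]
    {g : (ι → Bool) → A} {v : A → ℝ} {D : ℕ} (ho : Orth g v) (hd : Deg D g)
    {σ : ℝ} (hσ : 0 < σ) (hI : avg (fun x => v (g x) ^ 2) = σ ^ 2)
    (J : ℝ → W) (c ω q : W → ℝ) (hq : ∀ i, 0 < q i)
    (hg : Good (fun x => v (g x) / σ) J c ω q) :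
    Ach ((Fintype.card W + 1) * D) ((Fintype.card W + 1 + (∏ i, q i) / 2) * σ ^ 2) := by
  classical
  set E : W → ℝ → Prop := fun i s => c i ≤ s ∧ s < c i + ω i with hE
  set ζ : (ι → Bool) → ℝ := fun x => v (g x) / σ with hζ
  have h0 : avg ζ = 0 := by
    rw [hζ]
    simp only [div_eq_mul_inv]
    rw [avg_mul_const, ho.mean, zero_mul]
  have h1 : avg (fun z => ζ z ^ 2) = 1 := by
    rw [hζ]
    simp only [div_pow]
    simp only [div_eq_mul_inv]
    rw [avg_mul_const, hI]
    field_simp
  obtain ⟨s0, hs0⟩ := gadget_ineq ζ h0 h1 J E c ω q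
    (fun i s h => abs_le.2 ⟨by linarith [h.1, h.2], by linarith [h.1, h.2]⟩) hq hg.1 hg.2
  have ho' : Orth (pw (Option (Option W)) g) (fun a => ∑ j, v (a j)) := ho.pw
  obtain ⟨v', hv', hle⟩ := ho'.coarsen (gad J E (fun a => v a / σ))
    (Sum.elim (fun a => σ * s0 + v a) (fun b => ∑ i, v (b i)))
  refine ⟨Option (Option W) × ι, inferInstance, inferInstance, _, _, v', hv',
    hd.comp (deg_gad J E _), le_trans ?_ hle⟩
  rw [avg_pw g (fun a : Option (Option W) → A => (∑ j, v (a j)) ^ 2),
    avg_sq_sum (fun x => v (g x)) ho.mean, hI,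
    avg_pw g (fun a : Option (Option W) → A => (∑ j, v (a j) -
      Sum.elim (fun a => σ * s0 + v a) (fun b => ∑ i, v (b i))
        (gad J E (fun a => v a / σ) a)) ^ 2)]
  have hv : ∀ x, v (g x) = σ * ζ x := fun x => by rw [hζ]; field_simp
  have e : ∀ y : Option (Option W) → ι → Bool, (∑ j, v (g (y j)) -
      Sum.elim (fun a => σ * s0 + v a) (fun b => ∑ i, v (b i))
        (gad J E (fun a => v a / σ) (fun j => g (y j)))) ^ 2
      = σ ^ 2 * (ζ (y none) ^ 2 + ind (Bset J E (ζ (y (some none))) (fun i => ζ (y (some (some i)))))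
        * ((ζ (y (some none)) + ∑ i, ζ (y (some (some i))) - s0) ^ 2 - ζ (y none) ^ 2)) := by
    intro y
    unfold gad
    split_ifs with h
    · rw [ind_of h]
      simp only [Sum.elim_inl, Fintype.sum_option, hv, ← mul_sum]
      ring
    · rw [ind_of_not h]
      simp only [Sum.elim_inr, Fintype.sum_option, hv, ← mul_sum]
      ring
  rw [avg_congr e, avg_const_mul,
    avg_option (fun (t : ι → Bool) (y : Option W → ι → Bool) => ζ t ^ 2 +
      ind (Bset J E (ζ (y none)) (fun i => ζ (y (some i))))
        * ((ζ (y none) + ∑ i, ζ (y (some i)) - s0) ^ 2 - ζ t ^ 2))]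
  have e2 : ∀ t : ι → Bool, avg (fun y : Option W → ι → Bool => ζ t ^ 2 +
      ind (Bset J E (ζ (y none)) (fun i => ζ (y (some i))))
        * ((ζ (y none) + ∑ i, ζ (y (some i)) - s0) ^ 2 - ζ t ^ 2))
      = ζ t ^ 2 + avg (fun y : Option W → ι → Bool =>
          ind (Bset J E (ζ (y none)) (fun i => ζ (y (some i))))
          * (ζ (y none) + ∑ i, ζ (y (some i)) - s0) ^ 2)
        - avg (fun y : Option W → ι → Bool =>
          ind (Bset J E (ζ (y none)) (fun i => ζ (y (some i))))) * ζ t ^ 2 := by
    intro t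
    simp only [mul_sub]
    rw [avg_add, avg_sub, avg_const, avg_mul_const]
    ring
  rw [avg_congr e2, avg_sub, avg_add, avg_const, avg_const_mul, h1]
  rw [← avg_option (fun (t : ι → Bool) (y : W → ι → Bool) =>
    ind (Bset J E (ζ t) (fun i => ζ (y i))) * ((ζ t + ∑ i, ζ (y i) - s0) ^ 2 - 1))] at hs0
  simp only [mul_sub, mul_one] at hs0
  rw [avg_sub] at hs0
  simp only [Fintype.card_option]
  push_cast
  have hσ2 : 0 < σ ^ 2 := by positivity
  nlinarith

end Vale.Agent.P047
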