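import Vale.Agent.P047.CLT
import Vale.Agent.P047.Step

namespace Vale.Agent.P047
open Finset MeasureTheory ProbabilityTheory Filter Topology

lemma pdf_eq (s : ℝ) : gaussianPDFReal 0 1 s = (√(2 * Real.pi))⁻¹ * Real.exp (-(s ^ 2 / 2)) := by
  simp [gaussianPDFReal, neg_div]

lemma cst_pos : 0 < (√(2 * Real.pi))⁻¹ := by
  have := Real.pi_pos
  positivity

lemma cst_ge : 1 / 3 ≤ (√(2 * Real.pi))⁻¹ := by
  have h := Real.pi_pos
  have h2 : √(2 * Real.pi) ≤ 3 := by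
    rw [Real.sqrt_le_iff]
    constructor
    · norm_num
    · have := Real.pi_le_four
      linarith
  rw [one_div]
  exact inv_anti₀ (by positivity) h2

lemma ev_lower {Ω : Type*} [Fintype Ω] [Nonempty Ω] (X : Ω → ℝ) (h0 : avg X = 0)
    (h1 : avg (fun z => X z ^ 2) = 1) {a w m : ℝ} (hw : 0 < w) (hm : 0 < m)
    (h : ∀ s, a ≤ s → s < a + w → m ≤ gaussianPDFReal 0 1 s) :
    ∀ᶠ r : ℕ in atTop, w * m / 2 ≤ avg (fun y : Fin r → Ω =>
      ind (a ≤ (∑ i, X (y i)) / √r ∧ (∑ i, X (y i)) / √r < a + w)) := by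
  have h2 := gauss_lower (by linarith) h
  refine ((clt_interval X h0 h1 a (a + w)).eventually_const_lt ?_).mono fun r hr => hr.le
  have : 0 < w * m := mul_pos hw hm
  have e : m * (a + w - a) = w * m := by ring
  linarith

lemma ev_upper {Ω : Type*} [Fintype Ω] [Nonempty Ω] (X : Ω → ℝ) (h0 : avg X = 0)
    (h1 : avg (fun z => X z ^ 2) = 1) {a w m : ℝ} (hw : 0 < w) (hm : 0 < m)
    (h : ∀ s, a ≤ s → s < a + w → gaussianPDFReal 0 1 s ≤ m) :
    ∀ᶠ r : ℕ in atTop, avg (fun y : Fin r → Ω =>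
      ind (a ≤ (∑ i, X (y i)) / √r ∧ (∑ i, X (y i)) / √r < a + w)) ≤ 2 * w * m := by
  have h2 := gauss_upper (by linarith) h
  refine ((clt_interval X h0 h1 a (a + w)).eventually_lt_const ?_).mono fun r hr => hr.le
  have : 0 < w * m := mul_pos hw hm
  have e : m * (a + w - a) = w * m := by ring
  linarith

lemma tail_pt {s R : ℝ} (h : R ≤ |s|) :
    (|s| + 2) ^ 2 + 1 ≤ 5 * Real.exp (-(21 * R)) * (Real.exp (22 * s) + Real.exp (-22 * s)) := by
  have h0 := abs_nonneg s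
  have h1 := Real.quadratic_le_exp_of_nonneg h0
  have h2 : Real.exp |s| ≤ Real.exp (-(21 * R)) * Real.exp (22 * |s|) := by
    rw [← Real.exp_add]
    exact Real.exp_le_exp.2 (by linarith)
  have h3 : Real.exp (22 * |s|) ≤ Real.exp (22 * s) + Real.exp (-22 * s) := by
    have a1 := Real.exp_pos (22 * s)
    have a2 := Real.exp_pos (-22 * s)
    rcases abs_cases s with ⟨e, _⟩ | ⟨e, _⟩
    · rw [e]; linarith
    · rw [e, show 22 * -s = -22 * s by ring]; linarith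
  have h4 := mul_le_mul_of_nonneg_left h3 (Real.exp_pos (-(21 * R))).le
  nlinarith

lemma tail_const {R K : ℝ} (hR : 600 ≤ R) (hK0 : 0 < K) (hK2 : K ≤ Real.exp (4 * R + 9)) :
    60 / (1 / K ^ 5) * Real.exp (-(21 * R)) * (Real.exp (22 ^ 2) + Real.exp ((-22) ^ 2))
      ≤ 1 / 4 := by
  have a1 : K ^ 5 ≤ Real.exp (20 * R + 45) := by
    calc K ^ 5 ≤ Real.exp (4 * R + 9) ^ 5 := pow_le_pow_left₀ hK0.le hK2 5
      _ = _ := by rw [← Real.exp_nat_mul]; congr 1; push_cast; ring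
  have a2 : Real.exp (20 * R + 45) * Real.exp (-(21 * R)) * Real.exp (22 ^ 2)
      * Real.exp 71 ≤ 1 := by
    rw [← Real.exp_add, ← Real.exp_add, ← Real.exp_add]
    exact Real.exp_le_one_iff.2 (by linarith)
  have a3 := Real.quadratic_le_exp_of_nonneg (show (0 : ℝ) ≤ 71 by norm_num)
  have a4 : K ^ 5 * Real.exp (-(21 * R)) * Real.exp (22 ^ 2)
      ≤ Real.exp (20 * R + 45) * Real.exp (-(21 * R)) * Real.exp (22 ^ 2) := by gcongr
  have a5 : 0 ≤ Real.exp (20 * R + 45) * Real.exp (-(21 * R)) * Real.exp (22 ^ 2) := by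
    positivity
  have e : 60 / (1 / K ^ 5) * Real.exp (-(21 * R)) * (Real.exp (22 ^ 2) + Real.exp ((-22) ^ 2))
      = 120 * (K ^ 5 * Real.exp (-(21 * R)) * Real.exp (22 ^ 2)) := by
    rw [show ((-22 : ℝ)) ^ 2 = 22 ^ 2 by norm_num, one_div, div_inv_eq_mul]; ring
  rw [e]
  have a6 : Real.exp (20 * R + 45) * Real.exp (-(21 * R)) * Real.exp (22 ^ 2) * 480 ≤ 1 :=
    le_trans (mul_le_mul_of_nonneg_left (by linarith) a5) a2
  clear e a2 a5
  generalize K ^ 5 * Real.exp (-(21 * R)) * Real.exp (22 ^ 2) = u at a4 ⊢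
  generalize Real.exp (20 * R + 45) * Real.exp (-(21 * R)) * Real.exp (22 ^ 2) = u' at a4 a6
  linarith

lemma design_aux (R K : ℕ) (hR : 600 ≤ R) (hK1 : Real.exp (4 * R + 8) ≤ K)
    (hK2 : (K : ℝ) ≤ Real.exp (4 * R + 9)) :
    ∃ (J : ℝ → Option (Fin (2 * R * K ^ 5))) (c ω q : Option (Fin (2 * R * K ^ 5)) → ℝ),
      (∀ i, 0 < q i) ∧ ∀ (Ω : Type) [Fintype Ω] [Nonempty Ω] (X : Ω → ℝ), avg X = 0 →
        avg (fun z => X z ^ 2) = 1 → ∀ᶠ r : ℕ in atTop,
          Good (fun y : Fin r → Ω => (∑ i, X (y i)) / √r) J c ω q := by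
  classical
  have hR' : (600 : ℝ) ≤ R := by exact_mod_cast hR
  set ρ : ℝ := Real.exp (3 * R + 5) with hρ
  have hρ1 : 1 ≤ ρ := Real.one_le_exp (by linarith)
  have hKρ : 8 * R * ρ ≤ K := by
    have a1 : (R : ℝ) ≤ Real.exp R := by linarith [Real.add_one_le_exp (R : ℝ)]
    have a2 : (8 : ℝ) ≤ Real.exp 3 := by
      have := Real.quadratic_le_exp_of_nonneg (show (0 : ℝ) ≤ 3 by norm_num)
      linarith
    have a3 : Real.exp (4 * R + 8) = Real.exp 3 * Real.exp R * ρ := by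
      rw [hρ, ← Real.exp_add, ← Real.exp_add]; congr 1; ring
    have a4 : 8 * (R : ℝ) ≤ Real.exp 3 * Real.exp R :=
      mul_le_mul a2 a1 (by linarith) (Real.exp_pos _).le
    calc 8 * R * ρ ≤ Real.exp 3 * Real.exp R * ρ := mul_le_mul_of_nonneg_right a4 (by linarith)
      _ ≤ K := a3 ▸ hK1
  have hK8 : 8 * (R : ℝ) ≤ K := by nlinarith
  have hK36 : (36 : ℝ) ≤ K := by linarith
  have hK0 : (0 : ℝ) < K := by linarith
  set ε : ℝ := 1 / (K : ℝ) ^ 5 with hε
  set w : ℝ := 1 / (K : ℝ) ^ 8 with hw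
  have hε0 : 0 < ε := by positivity
  have hw0 : 0 < w := by positivity
  have hK1' : (1 : ℝ) ≤ K := by linarith
  have hwε : w ≤ ε := one_div_le_one_div_of_le (by positivity) (pow_le_pow_right₀ hK1' (by norm_num))
  have hε2 : ε ≤ 1 / 5 := by
    refine one_div_le_one_div_of_le (by norm_num) ?_
    calc (5 : ℝ) ≤ K ^ 1 := by linarith
      _ ≤ K ^ 5 := pow_le_pow_right₀ hK1' (by norm_num)
  have hε1 : ε ≤ 1 := by linarith
  have hεK : ε * (K : ℝ) ^ 5 = 1 := by rw [hε]; field_simp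
  set t : Fin (2 * R * K ^ 5) → ℝ := fun l => -R + (l : ℕ) * ε with ht
  have htR : ∀ l, |t l| ≤ R := by
    intro l
    have h1 : (((l : ℕ) : ℝ)) ≤ 2 * R * (K : ℝ) ^ 5 := by exact_mod_cast l.2.le
    have h2 : ((l : ℕ) : ℝ) * ε ≤ 2 * R := by
      calc ((l : ℕ) : ℝ) * ε ≤ 2 * R * (K : ℝ) ^ 5 * ε := mul_le_mul_of_nonneg_right h1 hε0.le
        _ = 2 * R * (ε * (K : ℝ) ^ 5) := by ring
        _ = 2 * R := by rw [hεK, mul_one]
    have h3 : 0 ≤ ((l : ℕ) : ℝ) * ε := by positivity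
    exact abs_le.2 ⟨by simp only [ht]; linarith, by simp only [ht]; linarith⟩
  set m : Fin (2 * R * K ^ 5) → ℝ :=
    fun l => (√(2 * Real.pi))⁻¹ * Real.exp (-((|t l| + 2) ^ 2 / 2)) with hm
  have hm0 : ∀ l, 0 < m l := fun l => mul_pos cst_pos (Real.exp_pos _)
  have hfl : ∀ s : ℝ, -R ≤ s ∧ s < R → ⌊(s + R) * (K : ℝ) ^ 5⌋₊ < 2 * R * K ^ 5 := by
    intro s hs
    rw [Nat.floor_lt (mul_nonneg (by linarith [hs.1]) (by positivity))]
    push_cast
    exact mul_lt_mul_of_pos_right (by linarith [hs.2]) (by positivity)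
  set J : ℝ → Option (Fin (2 * R * K ^ 5)) :=
    fun s => if h : -R ≤ s ∧ s < R then some ⟨_, hfl s h⟩ else none with hJ
  set c : Option (Fin (2 * R * K ^ 5)) → ℝ := fun i => i.elim 0 (fun l => t l + 1) with hc
  set ω : Option (Fin (2 * R * K ^ 5)) → ℝ := fun i => i.elim ε (fun _ => w) with hω
  set q : Option (Fin (2 * R * K ^ 5)) → ℝ :=
    fun i => i.elim (ε * (1 / 6) / 2) (fun l => w * m l / 2) with hq
  have hq0 : ∀ i, 0 < q i := by
    rintro (_ | l)
    · simp only [hq, Option.elim_none]; positivity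
    · simp only [hq, Option.elim_some]; have := hm0 l; positivity
  have hQ : 4 * ∑ i, ω i ^ 2 ≤ 5 * ε ^ 2 := by
    rw [Fintype.sum_option]
    simp only [hω, Option.elim_none, Option.elim_some, sum_const, card_univ, Fintype.card_fin,
      nsmul_eq_mul]
    push_cast
    have e : 2 * (R : ℝ) * (K : ℝ) ^ 5 * w ^ 2 = (2 * R / K) * ε ^ 2 := by
      rw [hw, hε]; field_simp
    have e2 : 2 * (R : ℝ) / K ≤ 1 / 4 := by
      rw [div_le_iff₀ hK0]; linarith
    rw [e]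
    have := mul_le_mul_of_nonneg_right e2 (sq_nonneg ε)
    linarith
  have hQ0 : 0 ≤ 4 * ∑ i, ω i ^ 2 := by positivity
  have hpt : ∀ s : ℝ, ((|s + 1 - c (J s)| + ω (J s)) ^ 2 + 4 * ∑ i, ω i ^ 2) / q (J s)
      ≤ ∑ l, ind (t l ≤ s ∧ s < t l + ε) * (9 * ε ^ 2 / (w * m l / 2))
        + 60 / ε * Real.exp (-(21 * R)) * (Real.exp (22 * s) + Real.exp (-22 * s)) := by
    intro s
    have hterm : ∀ l, 0 ≤ ind (t l ≤ s ∧ s < t l + ε) * (9 * ε ^ 2 / (w * m l / 2)) := fun l =>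
      mul_nonneg (ind_nonneg _) (by have := hm0 l; positivity)
    by_cases h : -R ≤ s ∧ s < R
    · obtain ⟨l, hl1, hl2⟩ : ∃ l, J s = some l ∧ (l : ℕ) = ⌊(s + R) * (K : ℝ) ^ 5⌋₊ :=
        ⟨⟨_, hfl s h⟩, by simp only [hJ, dif_pos h], rfl⟩
      have hnn : 0 ≤ (s + R) * (K : ℝ) ^ 5 := mul_nonneg (by linarith [h.1]) (by positivity)
      have f1 := Nat.floor_le hnn
      have f2 := Nat.lt_floor_add_one ((s + R) * (K : ℝ) ^ 5)
      rw [← hl2] at f1 f2
      have e : (s + R) * (K : ℝ) ^ 5 * ε = s + R := by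
        rw [mul_assoc, mul_comm _ ε, hεK, mul_one]
      have g1 : t l ≤ s := by
        have := mul_le_mul_of_nonneg_right f1 hε0.le
        simp only [ht]; linarith
      have g2 : s < t l + ε := by
        have := mul_lt_mul_of_pos_right f2 hε0
        simp only [ht]; linarith
      rw [hl1]
      simp only [hc, hq, Option.elim_some]
      have hωl : ω (some l) = w := rfl
      rw [hωl]
      have g3 : |s + 1 - (t l + 1)| ≤ ε := abs_le.2 ⟨by linarith, by linarith⟩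
      have g4 : (|s + 1 - (t l + 1)| + w) ^ 2 ≤ (2 * ε) ^ 2 :=
        pow_le_pow_left₀ (by positivity) (by linarith) 2
      have g5 : ((|s + 1 - (t l + 1)| + w) ^ 2 + 4 * ∑ i, ω i ^ 2) / (w * m l / 2)
          ≤ ind (t l ≤ s ∧ s < t l + ε) * (9 * ε ^ 2 / (w * m l / 2)) := by
        rw [ind_of ⟨g1, g2⟩, one_mul]
        exact div_le_div_of_nonneg_right (by linarith) (by have := hm0 l; positivity)
      refine g5.trans (le_trans (single_le_sum (fun l _ => hterm l) (mem_univ l)) ?_)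
      exact le_add_of_nonneg_right (by positivity)
    · have hl1 : J s = none := by simp only [hJ, dif_neg h]
      have hs : (R : ℝ) ≤ |s| := by
        by_contra hcon
        push Not at hcon
        have := abs_lt.1 hcon
        exact h ⟨this.1.le, this.2⟩
      rw [hl1]
      simp only [hc, hq, Option.elim_none]
      have hωl : ω none = ε := rfl
      rw [hωl]
      have g3 : |s + 1 - 0| ≤ |s| + 1 := by
        rw [sub_zero]
        exact (abs_add_le s 1).trans (by simp)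
      have g4 : (|s + 1 - 0| + ε) ^ 2 ≤ (|s| + 2) ^ 2 :=
        pow_le_pow_left₀ (by positivity) (by linarith) 2
      have g5 : 5 * ε ^ 2 ≤ 1 := by nlinarith
      have g6 := tail_pt hs
      refine le_trans ?_ (le_add_of_nonneg_left (sum_nonneg fun l _ => hterm l))
      rw [div_le_iff₀ (by positivity)]
      have e : 60 / ε * Real.exp (-(21 * R)) * (Real.exp (22 * s) + Real.exp (-22 * s))
          * (ε * (1 / 6) / 2)
          = 5 * Real.exp (-(21 * R)) * (Real.exp (22 * s) + Real.exp (-22 * s)) := by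
        field_simp
        ring
      rw [e]
      linarith
  refine ⟨J, c, ω, q, hq0, fun Ω _ _ X h0 h1 => ?_⟩
  have ev1 : ∀ i, ∀ᶠ r : ℕ in atTop, q i ≤ avg (fun y : Fin r → Ω =>
      ind (c i ≤ (∑ i, X (y i)) / √r ∧ (∑ i, X (y i)) / √r < c i + ω i)) := by
    rintro (_ | l)
    · refine ev_lower X h0 h1 (a := 0) hε0 (by norm_num : (0 : ℝ) < 1 / 6) fun s h2 h3 => ?_
      rw [pdf_eq]
      have a1 : s ^ 2 ≤ 1 := by nlinarith
      have a2 := Real.add_one_le_exp (-(s ^ 2 / 2))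
      have a3 : 1 / 2 ≤ Real.exp (-(s ^ 2 / 2)) := by linarith
      calc (1 : ℝ) / 6 = 1 / 3 * (1 / 2) := by norm_num
        _ ≤ _ := mul_le_mul cst_ge a3 (by norm_num) cst_pos.le
    · refine ev_lower X h0 h1 (a := t l + 1) hw0 (hm0 l) fun s h2 h3 => ?_
      rw [pdf_eq]
      refine mul_le_mul_of_nonneg_left (Real.exp_le_exp.2 ?_) cst_pos.le
      have a1 : |s| ≤ |t l| + 2 :=
        abs_le.2 ⟨by linarith [neg_abs_le (t l)], by linarith [le_abs_self (t l)]⟩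
      have a2 := pow_le_pow_left₀ (abs_nonneg s) a1 2
      rw [sq_abs] at a2
      linarith
  have ev2 : ∀ l, ∀ᶠ r : ℕ in atTop, avg (fun y : Fin r → Ω =>
      ind (t l ≤ (∑ i, X (y i)) / √r ∧ (∑ i, X (y i)) / √r < t l + ε)) ≤ 2 * ε * (m l * ρ) := by
    intro l
    refine ev_upper X h0 h1 hε0 (mul_pos (hm0 l) (by linarith)) fun s h2 h3 => ?_
    rw [pdf_eq, hm, hρ]
    simp only
    rw [mul_assoc, ← Real.exp_add]
    refine mul_le_mul_of_nonneg_left (Real.exp_le_exp.2 ?_) cst_pos.le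
    have a1 := htR l
    have a2 : |t l| ^ 2 = t l ^ 2 := sq_abs _
    have a3 : -|t l| * (s - t l) ≤ t l * (s - t l) :=
      mul_le_mul_of_nonneg_right (neg_abs_le _) (by linarith)
    have a4 : |t l| * (s - t l) ≤ |t l| * 1 :=
      mul_le_mul_of_nonneg_left (by linarith) (abs_nonneg _)
    nlinarith [sq_nonneg (s - t l)]
  filter_upwards [eventually_all.2 ev1, eventually_all.2 ev2, mgf_bound X h0 h1 22,
    mgf_bound X h0 h1 (-22)] with r r1 r2 r3 r4
  refine ⟨r1, (avg_mono fun y => hpt _).trans ?_⟩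
  rw [avg_add, avg_sum, avg_const_mul, avg_add]
  have s1 : ∑ l, avg (fun y : Fin r → Ω =>
      ind (t l ≤ (∑ i, X (y i)) / √r ∧ (∑ i, X (y i)) / √r < t l + ε)
        * (9 * ε ^ 2 / (w * m l / 2))) ≤ 1 / 4 := by
    refine le_trans (sum_le_sum (g := fun _ => 36 * ε ^ 3 * ρ / w) fun l _ => ?_) ?_
    · rw [avg_mul_const]
      have := hm0 l
      calc _ ≤ 2 * ε * (m l * ρ) * (9 * ε ^ 2 / (w * m l / 2)) :=
            mul_le_mul_of_nonneg_right (r2 l) (by positivity)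
        _ = _ := by field_simp; ring
    · rw [sum_const, card_univ, Fintype.card_fin, nsmul_eq_mul]
      push_cast
      have e : 2 * (R : ℝ) * (K : ℝ) ^ 5 * (36 * ε ^ 3 * ρ / w) = 9 * (8 * R * ρ) / K ^ 2 := by
        rw [hε, hw]; field_simp; ring
      rw [e, div_le_iff₀ (by positivity)]
      nlinarith
  have s2 := tail_const hR' hK0 hK2
  rw [← hε] at s2
  have s3 := mul_le_mul_of_nonneg_left (add_le_add r3 r4)
    (show 0 ≤ 60 / ε * Real.exp (-(21 * R)) by positivity)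
  linarith

lemma design : ∃ (W : Type) (_ : Fintype W) (_ : DecidableEq W) (J : ℝ → W) (c ω q : W → ℝ),
      (∀ i, 0 < q i) ∧ ∀ (Ω : Type) [Fintype Ω] [Nonempty Ω] (X : Ω → ℝ), avg X = 0 →
        avg (fun z => X z ^ 2) = 1 → ∀ᶠ r : ℕ in atTop,
          Good (fun y : Fin r → Ω => (∑ i, X (y i)) / √r) J c ω q := by
  obtain ⟨R, hR⟩ : ∃ R : ℕ, 600 ≤ R := ⟨600, le_rfl⟩
  have h2 : ((⌈Real.exp (4 * R + 8)⌉₊ : ℕ) : ℝ) ≤ Real.exp (4 * R + 9) := by
    have a1 := (Nat.ceil_lt_add_one (Real.exp_pos (4 * (R : ℝ) + 8)).le).le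
    have a2 : 1 ≤ Real.exp (4 * (R : ℝ) + 8) := Real.one_le_exp (by positivity)
    have a3 : Real.exp (4 * (R : ℝ) + 9) = Real.exp (4 * R + 8) * Real.exp 1 := by
      rw [← Real.exp_add]; congr 1; ring
    have a4 := Real.add_one_le_exp (1 : ℝ)
    nlinarith
  obtain ⟨J, c, ω, q, h⟩ := design_aux R _ hR (Nat.le_ceil _) h2
  exact ⟨_, inferInstance, inferInstance, J, c, ω, q, h⟩

end Vale.Agent.P047
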