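import Vale.Agent.P047.Sys

namespace Vale.Agent.P047
open Finset

open Classical in
/-- Real-valued indicator of a proposition. -/
noncomputable def ind (p : Prop) : ℝ := if p then 1 else 0

lemma ind_nonneg (p : Prop) : 0 ≤ ind p := by unfold ind; split_ifs <;> norm_num

lemma ind_le_one (p : Prop) : ind p ≤ 1 := by unfold ind; split_ifs <;> norm_num

lemma ind_of {p : Prop} (h : p) : ind p = 1 := by unfold ind; simp [h]

lemma ind_of_not {p : Prop} (h : ¬ p) : ind p = 0 := by unfold ind; simp [h]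

section
variable {Ω W : Type*} [Fintype Ω] [Fintype W] [DecidableEq W]

lemma avg_pair {α β : Type*} [Fintype α] [Fintype β] (F : α × β → ℝ) :
    avg F = avg (fun a => avg (fun b => F (a, b))) := by
  unfold avg
  rw [Fintype.sum_prod_type, ← sum_div, div_div, Fintype.card_prod]
  push_cast
  rw [mul_comm]

lemma avg_option (F : Ω → (W → Ω) → ℝ) :
    avg (fun y : Option W → Ω => F (y none) (fun i => y (some i)))
      = avg (fun t => avg (fun y => F t y)) := by
  rw [← avg_pair (fun p : Ω × (W → Ω) => F p.1 p.2)]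
  exact avg_equiv (Equiv.piOptionEquivProd (β := fun _ : Option W => Ω))
    (fun p : Ω × (W → Ω) => F p.1 p.2)

lemma avg_wsq (u ξ : W → Ω → ℝ) (τ : ℝ) (hu : ∀ i, avg (u i) ≠ 0)
    (h : ∀ i, avg (fun z => u i z * ξ i z) = 0) :
    avg (fun y : W → Ω => (∏ i, u i (y i)) * ((τ + ∑ i, ξ i (y i)) ^ 2 - 1))
      = (∏ i, avg (u i)) * (τ ^ 2 - 1 + ∑ i, avg (fun z => u i z * ξ i z ^ 2) / avg (u i)) := by
  have h1 := avg_weighted_sq u ξ (fun i l _ => by rw [h i, zero_mul])
  have h2 := avg_prod u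
  have h3 : avg (fun y : W → Ω => (∏ i, u i (y i)) * ∑ i, ξ i (y i)) = 0 := by
    have e : ∀ y : W → Ω, (∏ i, u i (y i)) * ∑ i, ξ i (y i)
        = ∑ i, ∏ m, (u m (y m) * (if m = i then ξ m (y m) else 1)) := by
      intro y
      rw [mul_sum]
      refine sum_congr rfl fun i _ => ?_
      rw [prod_mul_distrib]
      simp [prod_ite_eq']
    rw [avg_congr e, avg_sum]
    refine sum_eq_zero fun i _ => ?_
    rw [avg_prod (fun m z => u m z * (if m = i then ξ m z else 1))]
    refine prod_eq_zero (mem_univ i) ?_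
    simpa using h i
  have e : ∀ y : W → Ω, (∏ i, u i (y i)) * ((τ + ∑ i, ξ i (y i)) ^ 2 - 1)
      = (τ ^ 2 - 1) * (∏ i, u i (y i)) + 2 * τ * ((∏ i, u i (y i)) * ∑ i, ξ i (y i))
        + (∏ i, u i (y i)) * (∑ i, ξ i (y i)) ^ 2 := fun y => by ring
  rw [avg_congr e, avg_add, avg_add, avg_const_mul, avg_const_mul, h1, h2, h3, mul_add, mul_sum]
  congr 1
  · ring
  · refine sum_congr rfl fun i _ => ?_
    rw [← mul_prod_erase univ _ (mem_univ i)]
    have := hu i
    field_simp

/-- The punctured-line set. -/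
def Bset (J : ℝ → W) (E : W → ℝ → Prop) (t : ℝ) (b : W → ℝ) : Prop :=
  (∀ i, i ≠ J t → E i (b i)) ∧ ¬ E (J t) (b (J t))

lemma ind_Bset (J : ℝ → W) (E : W → ℝ → Prop) (t : ℝ) (b : W → ℝ) :
    ind (Bset J E t b) = (∏ i, if i = J t then 1 else ind (E i (b i))) - ∏ i, ind (E i (b i)) := by
  by_cases h1 : ∀ i, i ≠ J t → E i (b i)
  · have e1 : (∏ i, if i = J t then (1 : ℝ) else ind (E i (b i))) = 1 := by
      refine prod_eq_one fun i _ => ?_
      split_ifs with h
      · rfl
      · exact ind_of (h1 i h)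
    rw [e1]
    by_cases h2 : E (J t) (b (J t))
    · rw [ind_of_not (fun h => h.2 h2), prod_eq_one, sub_self]
      intro i _
      by_cases h : i = J t
      · rw [h]; exact ind_of h2
      · exact ind_of (h1 i h)
    · rw [ind_of ⟨h1, h2⟩, prod_eq_zero (mem_univ (J t)) (ind_of_not h2), sub_zero]
  · rw [ind_of_not (fun h => h1 h.1)]
    push Not at h1
    obtain ⟨i, hi, hE⟩ := h1
    rw [prod_eq_zero (mem_univ i) (by rw [if_neg hi]; exact ind_of_not hE),
      prod_eq_zero (mem_univ i) (ind_of_not hE), sub_zero]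

lemma gadget_ineq [Nonempty Ω] (ζ : Ω → ℝ) (h0 : avg ζ = 0) (h1 : avg (fun z => ζ z ^ 2) = 1)
    (J : ℝ → W) (E : W → ℝ → Prop) (c ω q : W → ℝ)
    (hE : ∀ i s, E i s → |s - c i| ≤ ω i) (hq : ∀ i, 0 < q i)
    (hp : ∀ i, q i ≤ avg (fun z => ind (E i (ζ z))))
    (hsum : avg (fun z => ((|ζ z + 1 - c (J (ζ z))| + ω (J (ζ z))) ^ 2 + 4 * ∑ i, ω i ^ 2)
      / q (J (ζ z))) ≤ 1 / 2) :
    ∃ s0 : ℝ, avg (fun t => avg (fun y : W → Ω => ind (Bset J E (ζ t) (fun i => ζ (y i))) *
      ((ζ t + ∑ i, ζ (y i) - s0) ^ 2 - 1))) ≤ - ((∏ i, q i) / 2) := by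
  set p : W → ℝ := fun i => avg (fun z => ind (E i (ζ z))) with hpdef
  have hp0 : ∀ i, 0 < p i := fun i => (hq i).trans_le (hp i)
  set a : W → ℝ := fun i => avg (fun z => ind (E i (ζ z)) * ζ z) / p i with hadef
  have hcent : ∀ i, avg (fun z => ind (E i (ζ z)) * (ζ z - a i)) = 0 := by
    intro i
    rw [avg_congr (G := fun z => ind (E i (ζ z)) * ζ z - ind (E i (ζ z)) * a i)
      (fun z => by ring), avg_sub, avg_mul_const]
    have := (hp0 i).ne'
    simp only [hadef]
    change _ - p i * _ = 0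
    field_simp
    ring
  have hac : ∀ i, |a i - c i| ≤ ω i := by
    intro i
    have e : avg (fun z => ind (E i (ζ z)) * (ζ z - c i)) = p i * (a i - c i) := by
      rw [avg_congr (G := fun z => ind (E i (ζ z)) * (ζ z - a i) + ind (E i (ζ z)) * (a i - c i))
        (fun z => by ring), avg_add, hcent, avg_mul_const, zero_add]
    have u1 : avg (fun z => ind (E i (ζ z)) * (ζ z - c i)) ≤ p i * ω i := by
      rw [← avg_mul_const]
      refine avg_mono fun z => ?_
      by_cases h : E i (ζ z)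
      · rw [ind_of h, one_mul, one_mul]; exact (abs_le.1 (hE i _ h)).2
      · rw [ind_of_not h]; simp
    have u2 : p i * (-ω i) ≤ avg (fun z => ind (E i (ζ z)) * (ζ z - c i)) := by
      rw [← avg_mul_const]
      refine avg_mono fun z => ?_
      by_cases h : E i (ζ z)
      · rw [ind_of h, one_mul, one_mul]; exact (abs_le.1 (hE i _ h)).1
      · rw [ind_of_not h]; simp
    rw [e] at u1 u2
    exact abs_le.2 ⟨le_of_mul_le_mul_left u2 (hp0 i), le_of_mul_le_mul_left u1 (hp0 i)⟩
  have hvar : ∀ i, avg (fun z => ind (E i (ζ z)) * (ζ z - a i) ^ 2) / p i ≤ 4 * ω i ^ 2 := by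
    intro i
    rw [div_le_iff₀ (hp0 i), mul_comm _ (p i), ← avg_mul_const]
    refine avg_mono fun z => ?_
    by_cases h : E i (ζ z)
    · rw [ind_of h, one_mul, one_mul]
      have a1 := abs_le.1 (hE i _ h)
      have a2 := abs_le.1 (hac i)
      nlinarith
    · rw [ind_of_not h]; simp
  have hvar0 : ∀ i, 0 ≤ avg (fun z => ind (E i (ζ z)) * (ζ z - a i) ^ 2) / p i := fun i =>
    div_nonneg (avg_nonneg fun z => mul_nonneg (ind_nonneg _) (sq_nonneg _)) (hp0 i).le
  set P : ℝ := ∏ i, p i with hP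
  have hP0 : 0 < P := prod_pos fun i _ => hp0 i
  have hPq : ∏ i, q i ≤ P := prod_le_prod (fun i _ => (hq i).le) (fun i _ => hp i)
  refine ⟨∑ i, a i - 1, ?_⟩
  have hneg : ∀ t, P * ((ζ t + 1) ^ 2 - 1) ≤ avg (fun y : W → Ω => (∏ i, ind (E i (ζ (y i)))) *
      ((ζ t + ∑ i, ζ (y i) - (∑ i, a i - 1)) ^ 2 - 1)) := by
    intro t
    have := avg_wsq (fun i z => ind (E i (ζ z))) (fun i z => ζ z - a i) (ζ t + 1)
      (fun i => (hp0 i).ne') hcent
    rw [avg_congr (G := fun y : W → Ω => (∏ i, ind (E i (ζ (y i)))) *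
      ((ζ t + 1 + ∑ i, (ζ (y i) - a i)) ^ 2 - 1)) (fun y => by rw [sum_sub_distrib]; ring), this]
    have h2 : 0 ≤ ∑ i, avg (fun z => ind (E i (ζ z)) * (ζ z - a i) ^ 2) / p i :=
      sum_nonneg fun i _ => hvar0 i
    exact mul_le_mul_of_nonneg_left (le_add_of_nonneg_right h2) hP0.le
  have hpos : ∀ t j, avg (fun y : W → Ω => (∏ i, if i = j then 1 else ind (E i (ζ (y i)))) *
      ((ζ t + ∑ i, ζ (y i) - (∑ i, a i - 1)) ^ 2 - 1))
      ≤ P * (((|ζ t + 1 - c j| + ω j) ^ 2 + 4 * ∑ i, ω i ^ 2) / q j) := by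
    intro t j
    have hu : ∀ i, avg (fun z => if i = j then (1 : ℝ) else ind (E i (ζ z)))
        = if i = j then 1 else p i := by
      intro i
      split_ifs
      · exact avg_const 1
      · rfl
    have := avg_wsq (fun i z => if i = j then (1 : ℝ) else ind (E i (ζ z)))
      (fun i z => ζ z - if i = j then 0 else a i) (ζ t + 1 - a j)
      (fun i => by
        rw [hu i]
        split_ifs
        · exact one_ne_zero
        · exact (hp0 i).ne')
      (fun i => by
        by_cases h : i = j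
        · simpa [h] using h0
        · simpa [h] using hcent i)
    have esum : ∑ i, (if i = j then 0 else a i) = ∑ i, a i - a j := by
      rw [← add_sum_erase univ a (mem_univ j), ← add_sum_erase univ _ (mem_univ j)]
      simp only [if_true, zero_add, add_sub_cancel_left]
      exact sum_congr rfl fun i hi => if_neg (ne_of_mem_erase hi)
    rw [avg_congr (G := fun y : W → Ω => (∏ i, if i = j then 1 else ind (E i (ζ (y i)))) *
      ((ζ t + 1 - a j + ∑ i, (ζ (y i) - if i = j then 0 else a i)) ^ 2 - 1))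
      (fun y => by rw [sum_sub_distrib, esum]; ring), this]
    simp only [hu]
    have e1 : (∏ i, if i = j then (1 : ℝ) else p i) = P / p j := by
      rw [hP, ← mul_prod_erase univ p (mem_univ j), ← mul_prod_erase univ _ (mem_univ j)]
      have := (hp0 j).ne'
      simp only [if_true, one_mul]
      rw [mul_div_cancel_left₀ _ this]
      exact prod_congr rfl fun i hi => if_neg (ne_of_mem_erase hi)
    have e2 : ∑ i, avg (fun z => (if i = j then (1 : ℝ) else ind (E i (ζ z))) *
        (ζ z - if i = j then 0 else a i) ^ 2) / (if i = j then 1 else p i)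
        ≤ 1 + 4 * ∑ i, ω i ^ 2 := by
      rw [mul_sum, ← add_sum_erase univ _ (mem_univ j)]
      refine add_le_add (by simp [h1]) ?_
      refine le_trans (sum_le_sum (g := fun i => 4 * ω i ^ 2) fun i hi => ?_)
        (sum_le_sum_of_subset_of_nonneg (subset_univ _) fun i _ _ => by positivity)
      simp only [if_neg (ne_of_mem_erase hi)]
      exact hvar i
    have e3 : (ζ t + 1 - a j) ^ 2 ≤ (|ζ t + 1 - c j| + ω j) ^ 2 := by
      have a2 := hac j
      have a3 : |ζ t + 1 - a j| ≤ |ζ t + 1 - c j| + ω j := by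
        calc |ζ t + 1 - a j| = |(ζ t + 1 - c j) - (a j - c j)| := by ring_nf
          _ ≤ |ζ t + 1 - c j| + |a j - c j| := abs_sub _ _
          _ ≤ _ := by linarith
      rw [← sq_abs (ζ t + 1 - a j)]
      exact pow_le_pow_left₀ (abs_nonneg _) a3 2
    rw [e1]
    have hX : 0 ≤ (|ζ t + 1 - c j| + ω j) ^ 2 + 4 * ∑ i, ω i ^ 2 := by positivity
    calc P / p j * _ ≤ P / p j * ((|ζ t + 1 - c j| + ω j) ^ 2 + 4 * ∑ i, ω i ^ 2) :=
          mul_le_mul_of_nonneg_left (by linarith) (div_pos hP0 (hp0 j)).le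
      _ ≤ P / q j * ((|ζ t + 1 - c j| + ω j) ^ 2 + 4 * ∑ i, ω i ^ 2) :=
          mul_le_mul_of_nonneg_right (div_le_div_of_nonneg_left hP0.le (hq j) (hp j)) hX
      _ = _ := by ring
  have hin : ∀ t, avg (fun y : W → Ω => ind (Bset J E (ζ t) (fun i => ζ (y i))) *
      ((ζ t + ∑ i, ζ (y i) - (∑ i, a i - 1)) ^ 2 - 1))
      ≤ P * (((|ζ t + 1 - c (J (ζ t))| + ω (J (ζ t))) ^ 2 + 4 * ∑ i, ω i ^ 2) / q (J (ζ t)))
        - P * ((ζ t + 1) ^ 2 - 1) := by
    intro t
    simp only [ind_Bset, sub_mul]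
    rw [avg_sub]
    have := hpos t (J (ζ t))
    have := hneg t
    linarith
  refine (avg_mono hin).trans ?_
  rw [avg_sub, avg_const_mul, avg_const_mul,
    avg_congr (F := fun t => (ζ t + 1) ^ 2 - 1) (G := fun t => ζ t ^ 2 + 2 * ζ t)
      (fun t => by ring), avg_add, avg_const_mul, h1, show avg (fun x => ζ x) = 0 from h0]
  nlinarith

end

end Vale.Agent.P047
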