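import Vale.Agent.P047.Design

namespace Vale.Agent.P047
open Finset MeasureTheory ProbabilityTheory Filter Topology

lemma Ach.mono {D : ℕ} {I I' : ℝ} (h : Ach D I) (hI : I' ≤ I) : Ach D I' := by
  obtain ⟨ι, _, _, A, g, v, h1, h2, h3⟩ := h
  exact ⟨ι, inferInstance, inferInstance, A, g, v, h1, h2, hI.trans h3⟩

lemma ach_base : Ach 1 1 := by
  refine ⟨Unit, inferInstance, inferInstance, Bool, fun x => x (), sg, ?_, ?_, ?_⟩
  · intro φ
    simp [S, avg_zero]
  · intro φ
    exact LowOrd.of_junta {()} (by simp) (fun x y h => congrArg φ (h () (by simp)))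
  · simp [sq, sg_sq, avg_const]

section
variable {ι A : Type} [Fintype ι] [DecidableEq ι] {g : (ι → Bool) → A} {v : A → ℝ}

lemma norm_mean (ho : Orth g v) (σ : ℝ) : avg (fun x => v (g x) / σ) = 0 := by
  simp only [div_eq_mul_inv]
  rw [avg_mul_const, ho.mean, zero_mul]

lemma norm_var {σ : ℝ} (hσ : 0 < σ) (hI : avg (fun x => v (g x) ^ 2) = σ ^ 2) :
    avg (fun x => (v (g x) / σ) ^ 2) = 1 := by
  simp only [div_pow]
  simp only [div_eq_mul_inv]
  rw [avg_mul_const, hI]
  field_simp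

lemma avg_pw_norm (r : ℕ) (σ : ℝ) (Φ : ℝ → ℝ) :
    avg (fun x : Fin r × ι → Bool => Φ ((∑ j, v (pw (Fin r) g x j)) / (√r * σ)))
      = avg (fun y : Fin r → ι → Bool => Φ ((∑ j, v (g (y j)) / σ) / √r)) := by
  rw [avg_pw g (fun a : Fin r → A => Φ ((∑ j, v (a j)) / (√r * σ)))]
  refine avg_congr fun y => ?_
  rw [← sum_div, div_div, mul_comm σ]

end

lemma improve : ∃ β : ℝ, 1 < β ∧ ∀ (D : ℕ) (I : ℝ), 1 ≤ D → 0 < I → Ach D I →
    ∃ D' : ℕ, 1 ≤ D' ∧ Ach D' (β * (I / D) * D') := by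
  obtain ⟨W, _, _, J, c, ω, q, hq, hG⟩ := design
  set n : ℕ := Fintype.card W with hn
  set η : ℝ := (∏ i, q i) / 2 with hη
  have hη0 : 0 < η := half_pos (prod_pos fun i _ => hq i)
  refine ⟨1 + η / (n + 1), by
    have : 0 < η / (n + 1) := by positivity
    linarith, ?_⟩
  rintro D I hD hI ⟨ι, _, _, A, g, v, ho, hd, hle⟩
  set I0 := avg (fun x => v (g x) ^ 2) with hI0
  have hI0pos : 0 < I0 := hI.trans_le hle
  have hσ : 0 < √I0 := Real.sqrt_pos.2 hI0pos
  have hsq : I0 = √I0 ^ 2 := (Real.sq_sqrt hI0pos.le).symm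
  obtain ⟨r, hr, hr1⟩ := ((hG (ι → Bool) (fun x => v (g x) / √I0) (norm_mean ho _)
    (norm_var hσ hsq)).and (eventually_ge_atTop 1)).exists
  have hr0 : (0 : ℝ) < r := by exact_mod_cast hr1
  have hsr : 0 < √(r : ℝ) := Real.sqrt_pos.2 hr0
  have ho' : Orth (pw (Fin r) g) (fun a => ∑ j, v (a j)) := ho.pw
  have hd' : Deg (r * D) (pw (Fin r) g) := by
    have := hd.comp (deg_id (κ := Fin r) (A := A))
    rwa [Fintype.card_fin] at this
  have hI' : avg (fun x => (∑ j, v (pw (Fin r) g x j)) ^ 2) = (√r * √I0) ^ 2 := by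
    rw [avg_pw g (fun a : Fin r → A => (∑ j, v (a j)) ^ 2), avg_sq_sum (fun x => v (g x)) ho.mean,
      mul_pow, Real.sq_sqrt hr0.le, ← hsq, Fintype.card_fin]
  have hgood : Good (fun x => (∑ j, v (pw (Fin r) g x j)) / (√r * √I0)) J c ω q := by
    refine ⟨fun i => ?_, ?_⟩
    · rw [avg_pw_norm r (√I0) (fun s => ind (c i ≤ s ∧ s < c i + ω i))]
      exact hr.1 i
    · rw [avg_pw_norm r (√I0) (fun s => ((|s + 1 - c (J s)| + ω (J s)) ^ 2 + 4 * ∑ i, ω i ^ 2)
        / q (J s))]
      exact hr.2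
  have := step ho' hd' (mul_pos hsr hσ) hI' J c ω q hq hgood
  refine ⟨(n + 1) * (r * D), Nat.mul_pos (by omega) (Nat.mul_pos hr1 hD), this.mono ?_⟩
  have hD0 : (0 : ℝ) < D := by exact_mod_cast hD
  rw [mul_pow, Real.sq_sqrt hr0.le, ← hsq]
  push_cast
  have e : (1 + η / (n + 1)) * (I / D) * ((n + 1) * (r * D)) = (n + 1 + η) * (r * I) := by
    field_simp
  rw [e]
  gcongr

lemma unbounded (C : ℝ) : ∃ D : ℕ, 1 ≤ D ∧ Ach D (C * D) := by
  obtain ⟨β, hβ, h⟩ := improve
  have key : ∀ k : ℕ, ∃ D : ℕ, 1 ≤ D ∧ Ach D (β ^ k * D) := by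
    intro k
    induction k with
    | zero => exact ⟨1, le_rfl, by simpa using ach_base⟩
    | succ k ih =>
      obtain ⟨D, hD, hA⟩ := ih
      have hD0 : (0 : ℝ) < D := by exact_mod_cast hD
      have hb : 0 < β ^ k := by positivity
      obtain ⟨D', hD', hA'⟩ := h D _ hD (by positivity) hA
      refine ⟨D', hD', hA'.mono (le_of_eq ?_)⟩
      field_simp
      ring
  obtain ⟨k, hk⟩ := ((tendsto_pow_atTop_atTop_of_one_lt hβ).eventually_ge_atTop C).exists
  obtain ⟨D, hD, hA⟩ := key k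
  exact ⟨D, hD, hA.mono (mul_le_mul_of_nonneg_right hk (Nat.cast_nonneg _))⟩

/-- A Boolean function of order `≤ D` whose linear coefficients sum to `L`. -/
def BoolAch (D : ℕ) (L : ℝ) : Prop :=
  ∃ (ι : Type) (_ : Fintype ι) (_ : DecidableEq ι) (f : (ι → Bool) → Bool),
    Deg D f ∧ avg (fun x => S x * sg (f x)) = L

/-- The same, for balanced functions. -/
def BalAch (D : ℕ) (L : ℝ) : Prop :=
  ∃ (ι : Type) (_ : Fintype ι) (_ : DecidableEq ι) (f : (ι → Bool) → Bool),
    Deg D f ∧ avg (fun x => sg (f x)) = 0 ∧ avg (fun x => S x * sg (f x)) = L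

lemma bool_unbounded (C : ℝ) : ∃ (D : ℕ) (L : ℝ), 1 ≤ D ∧ C * √D ≤ L ∧ BoolAch D L := by
  classical
  set m : ℝ := (√(2 * Real.pi))⁻¹ * Real.exp (-2) with hm
  have hm0 : 0 < m := mul_pos cst_pos (Real.exp_pos _)
  obtain ⟨D, hD, ι, _, _, A, g, v, ho, hd, hle⟩ := unbounded ((2 * |C| / m) ^ 2 + 1)
  have hD0 : (0 : ℝ) < D := by exact_mod_cast hD
  set I0 := avg (fun x => v (g x) ^ 2) with hI0
  have hI0pos : 0 < I0 := lt_of_lt_of_le (by positivity) hle
  have hσ : 0 < √I0 := Real.sqrt_pos.2 hI0pos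
  have hsq : I0 = √I0 ^ 2 := (Real.sq_sqrt hI0pos.le).symm
  have hev := ev_lower (fun x => v (g x) / √I0) (norm_mean ho _) (norm_var hσ hsq)
    (a := 1) (w := 1) one_pos hm0 (fun s h1 h2 => by
      rw [pdf_eq]
      exact mul_le_mul_of_nonneg_left (Real.exp_le_exp.2 (by nlinarith)) cst_pos.le)
  obtain ⟨r, hr, hr1⟩ := (hev.and (eventually_ge_atTop 1)).exists
  have hr0 : (0 : ℝ) < r := by exact_mod_cast hr1
  have hsr : 0 < √(r : ℝ) := Real.sqrt_pos.2 hr0
  have ho' : Orth (pw (Fin r) g) (fun a => ∑ j, v (a j)) := ho.pw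
  have hd' : Deg (r * D) (pw (Fin r) g) := by
    have := hd.comp (deg_id (κ := Fin r) (A := A))
    rwa [Fintype.card_fin] at this
  set b : (Fin r → A) → Bool := fun a => decide (0 ≤ ∑ j, v (a j)) with hb
  refine ⟨r * D, _, Nat.mul_pos hr1 hD, ?_, Fin r × ι, inferInstance, inferInstance,
    fun x => b (pw (Fin r) g x), fun φ => hd' (fun a => φ (b a)), rfl⟩
  have h1 := ho' (fun a => sg (b a))
  simp only [sub_mul] at h1
  rw [avg_sub] at h1
  rw [← avg_pw_norm r (√I0) (fun s => ind (1 ≤ s ∧ s < 1 + 1))] at hr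
  have hστ : 0 < √(r : ℝ) * √I0 := mul_pos hsr hσ
  have h2 : avg (fun x : Fin r × ι → Bool => ind (1 ≤ (∑ j, v (pw (Fin r) g x j)) / (√r * √I0) ∧
        (∑ j, v (pw (Fin r) g x j)) / (√r * √I0) < 1 + 1) * (√r * √I0))
      ≤ avg (fun x : Fin r × ι → Bool => (∑ j, v (pw (Fin r) g x j)) * sg (b (pw (Fin r) g x))) := by
    refine avg_mono fun x => ?_
    have habs : (∑ j, v (pw (Fin r) g x j)) * sg (b (pw (Fin r) g x))
        = |∑ j, v (pw (Fin r) g x j)| := by
      by_cases h : 0 ≤ ∑ j, v (pw (Fin r) g x j)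
      · simp [hb, h, sg, abs_of_nonneg h]
      · simp [hb, h, sg, abs_of_neg (not_le.1 h)]
    rw [habs]
    by_cases h : 1 ≤ (∑ j, v (pw (Fin r) g x j)) / (√r * √I0) ∧
        (∑ j, v (pw (Fin r) g x j)) / (√r * √I0) < 1 + 1
    · rw [ind_of h, one_mul]
      have := (le_div_iff₀ hστ).1 h.1
      rw [one_mul] at this
      exact this.trans (le_abs_self _)
    · rw [ind_of_not h, zero_mul]
      exact abs_nonneg _
  rw [avg_mul_const] at h2
  have h3 : 2 * |C| / m * √D ≤ √I0 := by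
    rw [Real.le_sqrt (by positivity) hI0pos.le, mul_pow, Real.sq_sqrt hD0.le]
    nlinarith
  have h4 : C * √((r * D : ℕ) : ℝ) ≤ 1 * m / 2 * (√r * √I0) := by
    push_cast
    rw [Real.sqrt_mul hr0.le]
    calc C * (√r * √D) ≤ |C| * (√r * √D) :=
          mul_le_mul_of_nonneg_right (le_abs_self C) (by positivity)
      _ = 1 * m / 2 * (√r * (2 * |C| / m * √D)) := by field_simp
      _ ≤ _ := by gcongr
  have h5 := mul_le_mul_of_nonneg_right hr hστ.le
  linarith

lemma S_option {ι : Type*} [Fintype ι] (x : Option ι → Bool) :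
    S x = sg (x none) + S (fun i => x (some i)) := by
  unfold S
  rw [Fintype.sum_option]

lemma avg_bool (F : Bool → ℝ) : avg F = (F true + F false) / 2 := by
  simp [avg]

lemma BoolAch.bal {D : ℕ} {L : ℝ} (h : BoolAch D L) : ∃ L', L - 1 ≤ L' ∧ BalAch (D + 1) L' := by
  obtain ⟨ι, _, _, f, hd, hL⟩ := h
  let neg : (ι → Bool) ≃ (ι → Bool) :=
    { toFun := fun x i => !x i
      invFun := fun x i => !x i
      left_inv := by intro x; simp
      right_inv := by intro x; simp }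
  have hS : ∀ x : ι → Bool, S (neg x) = - S x := by
    intro x
    simp [S, neg, sg_not]
  let F : Bool → (ι → Bool) → Bool := fun t y => if t then f y else !f (neg y)
  have a1 : avg (fun y => sg (f (neg y))) = avg (fun y => sg (f y)) :=
    avg_equiv neg (fun y => sg (f y))
  have a2 : avg (fun y => S (neg y) * sg (f (neg y))) = L :=
    (avg_equiv neg (fun y => S y * sg (f y))).trans hL
  refine ⟨_, ?_, Option ι, inferInstance, inferInstance,
    fun x => F (x none) (fun i => x (some i)), ?_, ?_, rfl⟩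
  · simp only [S_option]
    rw [avg_option (fun (t : Bool) (y : ι → Bool) => (sg t + S y) * sg (F t y)), avg_bool]
    have b1 : avg (fun y => (sg true + S y) * sg (F true y)) = avg (fun y => sg (f y)) + L := by
      rw [← hL, ← avg_add]
      exact avg_congr fun y => by simp [F, sg]; split_ifs <;> ring
    have b2 : avg (fun y => (sg false + S y) * sg (F false y)) = avg (fun y => sg (f y)) + L := by
      rw [← a2, ← a1, ← avg_add]
      refine avg_congr fun y => ?_
      simp only [F, Bool.false_eq_true, if_false, sg_not, hS]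
      simp only [sg, Bool.false_eq_true, if_false]
      ring
    have b3 : avg (fun _ : ι → Bool => (-1 : ℝ)) ≤ avg (fun y => sg (f y)) :=
      avg_mono fun y => by unfold sg; split_ifs <;> norm_num
    rw [avg_const] at b3
    rw [b1, b2]
    linarith
  · intro φ
    have e : ∀ x : Option ι → Bool, φ (F (x none) (fun i => x (some i)))
        = φ (f (fun i => x (some i))) * (if x none then 1 else 0)
          + φ (!f (neg (fun i => x (some i)))) * (if x none then 0 else 1) := by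
      intro x
      cases hx : x none <;> simp [F]
    refine LowOrd.congr (LowOrd.add (LowOrd.mul ?_ ?_) (LowOrd.mul ?_ ?_)) e
    · exact (hd φ).comap (fun (x : Option ι → Bool) i => x (some i)) some (fun _ _ _ h => h)
    · exact LowOrd.of_junta {none} (by simp) (fun x y h => by rw [h none (by simp)])
    · exact (hd (fun b => φ (!b))).comap (fun (x : Option ι → Bool) => neg (fun i => x (some i)))
        some (fun x y i h => by simp [neg, h])
    · exact LowOrd.of_junta {none} (by simp) (fun x y h => by rw [h none (by simp)])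
  · rw [avg_option (fun (t : Bool) (y : ι → Bool) => sg (F t y)), avg_bool]
    simp only [F, if_true, Bool.false_eq_true, if_false, sg_not]
    rw [avg_neg, a1]
    ring

lemma avg_push {Ω κ : Type*} [Fintype Ω] [Nonempty Ω] [Fintype κ] [DecidableEq κ] (f : Ω → Bool)
    (hf : avg (fun x => sg (f x)) = 0) (Ψ : (κ → Bool) → ℝ) :
    avg (fun y : κ → Ω => Ψ (fun j => f (y j))) = avg Ψ := by
  have h1 : ∀ b : Bool, avg (fun z => if f z = b then (1 : ℝ) else 0) = 1 / 2 := by
    intro b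
    rw [avg_congr (G := fun z => 1 / 2 + (sg b / 2) * sg (f z)) (fun z => by
      cases b <;> cases f z <;> norm_num [sg]), avg_add, avg_const, avg_const_mul, hf]
    ring
  have e : ∀ y : κ → Ω, Ψ (fun j => f (y j))
      = ∑ b : κ → Bool, Ψ b * ∏ j, (if f (y j) = b j then (1 : ℝ) else 0) := by
    intro y
    rw [sum_eq_single (fun j => f (y j))]
    · simp
    · intro b _ hb
      obtain ⟨j, hj⟩ := Function.ne_iff.1 hb
      rw [prod_eq_zero (mem_univ j) (if_neg (Ne.symm hj)), mul_zero]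
    · simp
  rw [avg_congr e, avg_sum]
  have e2 : ∀ b : κ → Bool, avg (fun y : κ → Ω =>
      Ψ b * ∏ j, (if f (y j) = b j then (1 : ℝ) else 0)) = Ψ b * (1 / 2) ^ Fintype.card κ := by
    intro b
    rw [avg_const_mul, avg_prod (fun j z => if f z = b j then (1 : ℝ) else 0)]
    simp only [h1, prod_const, card_univ]
  simp only [e2]
  unfold avg
  rw [← sum_mul]
  simp [div_eq_mul_inv]

lemma BalAch.mul {D1 D2 : ℕ} {L1 L2 : ℝ} (h1 : BalAch D1 L1) (h2 : BalAch D2 L2) :
    BalAch (D1 * D2) (L1 * L2) := by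
  obtain ⟨κ, _, _, f1, hd1, hb1, hL1⟩ := h1
  obtain ⟨ι, _, _, f2, hd2, hb2, hL2⟩ := h2
  have ho : Orth f2 (fun b => L2 * sg b) := by
    intro φ
    have e : ∀ x, (S x - L2 * sg (f2 x)) * φ (f2 x)
        = (φ true + φ false) / 2 * S x + (φ true - φ false) / 2 * (S x * sg (f2 x))
          - L2 * (φ true + φ false) / 2 * sg (f2 x) - L2 * (φ true - φ false) / 2 := by
      intro x
      cases f2 x <;> simp only [sg, if_true, Bool.false_eq_true, if_false] <;> ring
    rw [avg_congr e, avg_sub, avg_sub, avg_add, avg_const_mul, avg_const_mul, avg_const_mul,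
      avg_const, avg_S, hL2, hb2]
    ring
  refine ⟨κ × ι, inferInstance, inferInstance, fun x => f1 (pw κ f2 x), hd2.comp hd1, ?_, ?_⟩
  · rw [avg_pw f2 (fun a => sg (f1 a)), avg_push f2 hb2 (fun a => sg (f1 a)), hb1]
  · have h3 := (ho.pw (κ := κ)) (fun a => sg (f1 a))
    simp only [sub_mul] at h3
    rw [avg_sub, avg_pw f2 (fun a => (∑ j, L2 * sg (a j)) * sg (f1 a)),
      avg_push f2 hb2 (fun a => (∑ j, L2 * sg (a j)) * sg (f1 a)),
      avg_congr (F := fun a : κ → Bool => (∑ j, L2 * sg (a j)) * sg (f1 a))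
        (G := fun a => L2 * (S a * sg (f1 a))) (fun a => by rw [← mul_sum, S, mul_assoc]),
      avg_const_mul, hL1] at h3
    linarith

lemma balAch_one : BalAch 1 1 := by
  refine ⟨Unit, inferInstance, inferInstance, fun x => x (), ?_, ?_, ?_⟩
  · intro φ
    exact LowOrd.of_junta {()} (by simp) (fun x y h => congrArg φ (h () (by simp)))
  · rw [avg_update ()]
    simp [avg_sg, avg_zero]
  · simp [S, sg_sq, avg_const]

lemma BalAch.pow {D : ℕ} {L : ℝ} (h : BalAch D L) (k : ℕ) : BalAch (D ^ k) (L ^ k) := by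
  induction k with
  | zero => simpa using balAch_one
  | succ k ih => rw [pow_succ, pow_succ]; exact ih.mul h

lemma exists_bal : ∃ (D : ℕ) (L : ℝ), 2 ≤ D ∧ √D < L ∧ BalAch D L := by
  obtain ⟨D, L, hD, hL, h⟩ := bool_unbounded 3
  obtain ⟨L', hL', h'⟩ := h.bal
  refine ⟨D + 1, L', by omega, ?_, h'⟩
  have hD1 : (1 : ℝ) ≤ D := by exact_mod_cast hD
  have h1 : 1 ≤ √(D : ℝ) := Real.one_le_sqrt.2 hD1
  have h2 : √((D + 1 : ℕ) : ℝ) < 2 * √D := by
    rw [Real.sqrt_lt' (by positivity), mul_pow, Real.sq_sqrt (by positivity)]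
    push_cast
    linarith
  linarith

theorem power_law : ∃ α c : ℝ, 1 / 2 < α ∧ 0 < c ∧ ∀ d : ℕ, 1 ≤ d →
    ∃ (n : ℕ) (f : (Fin n → Bool) → Bool), LowOrd d (fun x => sg (f x)) ∧
      c * (d : ℝ) ^ α ≤ avg (fun x => S x * sg (f x)) := by
  obtain ⟨D, L, hD, hL, h⟩ := exists_bal
  have hD1 : (1 : ℝ) < D := by exact_mod_cast hD
  have hD0 : (0 : ℝ) < D := by linarith
  have hL0 : 0 < L := lt_of_le_of_lt (Real.sqrt_nonneg _) hL
  set α := Real.logb D L with hα
  have hDα : (D : ℝ) ^ α = L := Real.rpow_logb hD0 hD1.ne' hL0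
  have hα2 : 1 / 2 < α := by
    rw [← Real.rpow_lt_rpow_left_iff hD1, hDα, ← Real.sqrt_eq_rpow]
    exact hL
  refine ⟨α, 1 / L, hα2, by positivity, fun d hd => ?_⟩
  obtain ⟨ι, _, _, f, hdeg, -, hf⟩ := h.pow (Nat.log D d)
  have h1 : D ^ Nat.log D d ≤ d := Nat.pow_log_le_self D (by omega)
  have h2 : d < D ^ (Nat.log D d + 1) := Nat.lt_pow_succ_log_self (by omega) d
  let e := Fintype.equivFin ι
  refine ⟨Fintype.card ι, fun x => f (fun i => x (e i)), ?_, ?_⟩
  · exact ((hdeg sg).comap (fun (x : Fin (Fintype.card ι) → Bool) i => x (e i)) e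
      (fun _ _ _ h => h)).mono h1
  · have e1 : avg (fun x : Fin (Fintype.card ι) → Bool => S x * sg (f (fun i => x (e i))))
        = L ^ Nat.log D d := by
      rw [← hf, ← avg_equiv (Equiv.arrowCongr e.symm (Equiv.refl Bool))
        (fun x : ι → Bool => S x * sg (f x))]
      refine avg_congr fun x => ?_
      congr 1
      unfold S
      exact (Equiv.sum_comp e (fun i => sg (x i))).symm
    rw [e1]
    have h3 : (d : ℝ) ^ α ≤ ((D : ℝ) ^ (Nat.log D d + 1)) ^ α :=
      Real.rpow_le_rpow (Nat.cast_nonneg _) (by exact_mod_cast h2.le) (by linarith)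
    rw [← Real.rpow_natCast, ← Real.rpow_mul hD0.le, mul_comm, Real.rpow_mul hD0.le, hDα,
      Real.rpow_natCast, pow_succ] at h3
    rw [one_div, inv_mul_le_iff₀ hL0]
    linarith

end Vale.Agent.P047
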