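import Vale.Agent.P047.Basic

namespace Vale.Agent.P047
open Finset

/-- Sum of the signs of all coordinates. -/
noncomputable def S {ι : Type*} [Fintype ι] (x : ι → Bool) : ℝ := ∑ i, sg (x i)

/-- `v ∘ g` is the conditional expectation of `S` given `g`. -/
def Orth {ι A : Type*} [Fintype ι] [DecidableEq ι] (g : (ι → Bool) → A) (v : A → ℝ) : Prop :=
  ∀ φ : A → ℝ, avg (fun x => (S x - v (g x)) * φ (g x)) = 0

/-- Every real function of `g` has order at most `D`. -/
def Deg {ι B A : Type*} (D : ℕ) (g : (ι → B) → A) : Prop :=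
  ∀ φ : A → ℝ, LowOrd D (fun x => φ (g x))

/-- Independent copies of `g`. -/
def pw (κ : Type*) {ι A : Type*} (g : (ι → Bool) → A) (x : κ × ι → Bool) : κ → A :=
  fun j => g (fun i => x (j, i))

section
variable {ι κ A A' : Type*} [Fintype ι] [DecidableEq ι] [Fintype κ] [DecidableEq κ]

lemma avg_S : avg (S : (ι → Bool) → ℝ) = 0 := by
  unfold S
  rw [avg_sum]
  refine sum_eq_zero fun i _ => ?_
  rw [avg_update i]
  simp [avg_sg, avg_zero]

lemma avg_curry (F : (κ → ι → Bool) → ℝ) :
    avg (fun x : κ × ι → Bool => F (fun j i => x (j, i))) = avg F :=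
  avg_equiv (Equiv.curry κ ι Bool) F

lemma avg_pw (g : (ι → Bool) → A) (Ψ : (κ → A) → ℝ) :
    avg (fun x : κ × ι → Bool => Ψ (pw κ g x)) = avg (fun y : κ → ι → Bool => Ψ (fun j => g (y j))) :=
  avg_curry (fun y => Ψ (fun j => g (y j)))

lemma Orth.mean {g : (ι → Bool) → A} {v : A → ℝ} (h : Orth g v) :
    avg (fun x => v (g x)) = 0 := by
  have := h (fun _ => 1)
  simp only [mul_one] at this
  rw [avg_sub, avg_S] at this
  linarith

lemma Orth.pw {g : (ι → Bool) → A} {v : A → ℝ} (h : Orth g v) :
    Orth (pw κ g) (fun a => ∑ j, v (a j)) := by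
  intro Ψ
  have h1 : ∀ x : κ × ι → Bool, (S x - ∑ j, v (P047.pw κ g x j)) * Ψ (P047.pw κ g x)
      = ∑ j, (S (fun i => x (j, i)) - v (g (fun i => x (j, i)))) *
          Ψ (fun l => g (fun i => x (l, i))) := by
    intro x
    rw [← sum_mul, sum_sub_distrib]
    unfold S
    rw [Fintype.sum_prod_type]
    rfl
  rw [avg_congr h1, avg_sum]
  refine sum_eq_zero fun j _ => ?_
  rw [avg_curry (fun y : κ → ι → Bool => (S (y j) - v (g (y j))) * Ψ (fun l => g (y l))),
    avg_update j]
  have h2 : ∀ y : κ → ι → Bool, avg (fun z => (S (Function.update y j z j)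
      - v (g (Function.update y j z j))) * Ψ (fun l => g (Function.update y j z l))) = 0 := by
    intro y
    rw [← h (fun a => Ψ (Function.update (fun l => g (y l)) j a))]
    refine avg_congr fun z => ?_
    simp only [Function.update_self]
    congr 2
    ext l
    by_cases hl : l = j
    · subst hl; simp
    · simp [Function.update_of_ne hl]
  rw [avg_congr h2, avg_zero]

lemma avg_sq_sum {Ω : Type*} [Fintype Ω] [Nonempty Ω] (X : Ω → ℝ) (h0 : avg X = 0) :
    avg (fun y : κ → Ω => (∑ j, X (y j)) ^ 2) = Fintype.card κ * avg (fun z => X z ^ 2) := by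
  have := avg_weighted_sq (κ := κ) (fun _ (_ : Ω) => (1 : ℝ)) (fun _ z => X z)
    (fun i l _ => by simp only [one_mul]; rw [show (avg fun z => X z) = 0 from h0, zero_mul])
  simpa [avg_const] using this

omit [DecidableEq ι] [DecidableEq κ] [Fintype κ] in
lemma LowOrd.comp {D k : ℕ} {g : (ι → Bool) → A} (hg : Deg D g) {F : (κ → A) → ℝ}
    (hF : LowOrd k F) : LowOrd (k * D) (fun x : κ × ι → Bool => F (pw κ g x)) := by
  classical
  refine hF.induct (fun F => LowOrd (k * D) (fun x : κ × ι → Bool => F (pw κ g x))) ?_ ?_ ?_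
  · intro G T h1 h2
    refine LowOrd.mono ?_ (Nat.mul_le_mul_right D h1)
    clear h1
    induction T using Finset.induction_on generalizing G with
    | empty =>
      refine LowOrd.of_junta ∅ (by simp) (fun x y _ => h2 _ _ (by simp))
    | insert j T hj ih =>
      have e1 : ∀ x : κ × ι → Bool, G (pw κ g x) = ∑ a ∈ univ.image g,
          (if g (fun i => x (j, i)) = a then (1 : ℝ) else 0) *
            G (Function.update (pw κ g x) j a) := by
        intro x
        rw [sum_eq_single (g (fun i => x (j, i)))]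
        · simp only [if_true, one_mul]
          congr 1
          exact (Function.update_eq_self j (pw κ g x)).symm
        · intro b _ hb
          simp [Ne.symm hb]
        · simp
      refine LowOrd.congr (LowOrd.sum _ fun a _ => ?_) e1
      rw [card_insert_of_notMem hj, add_mul, one_mul, add_comm]
      refine LowOrd.mul ?_ (ih (fun b => G (Function.update b j a)) ?_)
      · exact (hg (fun b => if b = a then (1 : ℝ) else 0)).comap
          (fun (x : κ × ι → Bool) i => x (j, i)) (fun i => (j, i)) (fun _ _ _ h => h)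
      · intro x y hxy
        refine h2 _ _ fun i hi => ?_
        by_cases hij : i = j
        · subst hij; simp
        · simp only [Function.update_of_ne hij]
          exact hxy i (by simpa [hij] using hi)
  · intro G H h1 h2
    exact h1.add h2
  · intro c G h1
    exact h1.smul c

omit [DecidableEq ι] [DecidableEq κ] [Fintype κ] in
lemma Deg.comp {D k : ℕ} {g : (ι → Bool) → A} (hg : Deg D g) {h : (κ → A) → A'}
    (hh : Deg k h) : Deg (k * D) (fun x : κ × ι → Bool => h (pw κ g x)) :=
  fun φ => LowOrd.comp hg (hh φ)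

omit [DecidableEq κ] in
lemma deg_id : Deg (Fintype.card κ) (fun a : κ → A => a) := fun φ =>
  LowOrd.of_junta univ (by simp) (fun x y h => by rw [funext fun i => h i (mem_univ i)])

lemma exists_condexp {Ω : Type*} [Fintype Ω] (Y : Ω → ℝ) (G : Ω → A') :
    ∃ v' : A' → ℝ, ∀ φ : A' → ℝ, avg (fun x => (Y x - v' (G x)) * φ (G x)) = 0 := by
  classical
  refine ⟨fun a => (∑ x ∈ univ.filter (fun x => G x = a), Y x) /
    ((univ.filter (fun x => G x = a)).card : ℝ), fun φ => ?_⟩
  unfold avg
  rw [← sum_fiberwise_of_maps_to (s := univ) (t := univ.image G) (g := G)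
    (fun x _ => mem_image_of_mem G (mem_univ x))]
  rw [sum_eq_zero, zero_div]
  intro a ha
  obtain ⟨x0, _, hx0⟩ := mem_image.1 ha
  have hc : ((univ.filter (fun x => G x = a)).card : ℝ) ≠ 0 := by
    have : 0 < (univ.filter (fun x => G x = a)).card := card_pos.2 ⟨x0, by simp [hx0]⟩
    exact_mod_cast this.ne'
  rw [sum_congr rfl (g := fun x => (Y x - (∑ x ∈ univ.filter (fun x => G x = a), Y x) /
    ((univ.filter (fun x => G x = a)).card : ℝ)) * φ a)]
  · rw [← sum_mul, sum_sub_distrib, sum_const, nsmul_eq_mul]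
    field_simp
    simp
  · intro x hx
    rw [(mem_filter.1 hx).2]

lemma Orth.coarsen {g : (ι → Bool) → A} {v : A → ℝ} (hg : Orth g v) (h : A → A') (w : A' → ℝ) :
    ∃ v' : A' → ℝ, Orth (fun x => h (g x)) v' ∧
      avg (fun x => v (g x) ^ 2) - avg (fun x => (v (g x) - w (h (g x))) ^ 2)
        ≤ avg (fun x => v' (h (g x)) ^ 2) := by
  obtain ⟨v', hv'⟩ := exists_condexp (S : (ι → Bool) → ℝ) (fun x => h (g x))
  refine ⟨v', hv', ?_⟩
  have h1 := hv' w
  have h2 := hg (fun a => w (h a))
  have h3 : 0 ≤ avg (fun x => (v' (h (g x)) - w (h (g x))) ^ 2) := avg_nonneg fun _ => sq_nonneg _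
  have e : ∀ x, v' (h (g x)) ^ 2 = (v (g x) ^ 2 - (v (g x) - w (h (g x))) ^ 2)
      + (v' (h (g x)) - w (h (g x))) ^ 2
      + (2 * ((S x - v (g x)) * w (h (g x))) - 2 * ((S x - v' (h (g x))) * w (h (g x)))) :=
    fun x => by ring
  rw [avg_congr e, avg_add, avg_add, avg_sub, avg_sub, avg_const_mul, avg_const_mul, h1, h2]
  linarith

end

end Vale.Agent.P047
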